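import Vale.Agent.P141.PL.Defs

/-!
# P141, block B7a: the final remainder

One node.  `G0` is uniform against products of three edge functions, the lines of `G0, G1, G2`
have bounded energy, `F3` is bounded.
-/

namespace Vale.Agent.P141.PL.H317

open Finset

noncomputable section

/-- Uniformity on the finite box `s1 × s2 × s3` against products of three edge functions, in number
form: `a, b, c` bound the `L²` averages and `A, B, C` the maxima of the edge functions. -/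
def Unif {α β γ : Type*} (δ e : ℝ) (s1 : Finset α) (s2 : Finset β) (s3 : Finset γ)
    (G : α → β → γ → ℝ) : Prop :=
  ∀ (u : α → β → ℝ) (v : β → γ → ℝ) (w : α → γ → ℝ) (a b c A B C : ℝ),
    0 ≤ a → 0 ≤ b → 0 ≤ c → 0 ≤ A → 0 ≤ B → 0 ≤ C →
    ∑ x ∈ s1, ∑ y ∈ s2, u x y ^ 2 ≤ (s1.card : ℝ) * s2.card * a ^ 2 →
    (∀ x ∈ s1, ∀ y ∈ s2, |u x y| ≤ A) →
    ∑ y ∈ s2, ∑ z ∈ s3, v y z ^ 2 ≤ (s2.card : ℝ) * s3.card * b ^ 2 →
    (∀ y ∈ s2, ∀ z ∈ s3, |v y z| ≤ B) →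
    ∑ x ∈ s1, ∑ z ∈ s3, w x z ^ 2 ≤ (s1.card : ℝ) * s3.card * c ^ 2 →
    (∀ x ∈ s1, ∀ z ∈ s3, |w x z| ≤ C) →
    |∑ x ∈ s1, ∑ y ∈ s2, ∑ z ∈ s3, G x y z * (u x y * w x z * v y z)| ≤
      (s1.card : ℝ) * s2.card * s3.card *
        (δ * (a ^ (1 - e) * A ^ e) * (b ^ (1 - e) * B ^ e) * (c ^ (1 - e) * C ^ e))

/-- the part of size at most `H` -/
def lo (H t : ℝ) : ℝ := if |t| ≤ H then t else 0

/-- the part of size larger than `H` -/
def hi (H t : ℝ) : ℝ := if |t| ≤ H then 0 else t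

theorem lo_add_hi (H t : ℝ) : lo H t + hi H t = t := by unfold lo hi; split_ifs <;> simp

theorem abs_lo_le {H : ℝ} (hH : 0 ≤ H) (t : ℝ) : |lo H t| ≤ H := by
  unfold lo; split_ifs with h
  · exact h
  · simpa using hH

theorem abs_lo_le' (H t : ℝ) : |lo H t| ≤ |t| := by
  unfold lo; split_ifs with h
  · exact le_rfl
  · simp

theorem lo_sq_le (H t : ℝ) : lo H t ^ 2 ≤ t ^ 2 := sq_le_sq.mpr (abs_lo_le' H t)

theorem abs_hi_le {H : ℝ} (hH : 0 < H) (t : ℝ) : |hi H t| ≤ t ^ 2 / H := by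
  unfold hi; split_ifs with h
  · simp only [abs_zero]; positivity
  · rw [le_div_iff₀ hH, ← sq_abs t, sq]
    exact mul_le_mul_of_nonneg_left (not_le.mp h).le (abs_nonneg t)

section fixed

variable {α β γ : Type*} {s1 : Finset α} {s2 : Finset β} {s3 : Finset γ}

/-- high part: three functions, one of them (`t = t (y,z)`) small in `L¹`, the other two with
bounded line energies in the direction `x`. -/
theorem high_part {M Λ K : ℝ} (hM : 0 ≤ M) (hΛ : 0 ≤ Λ) {G : α → β → γ → ℝ} {u : α → β → ℝ}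
    {w : α → γ → ℝ} {t : β → γ → ℝ} (hu : ∀ x ∈ s1, ∀ y ∈ s2, |u x y| ≤ M)
    (hG : ∀ y ∈ s2, ∀ z ∈ s3, ∑ x ∈ s1, G x y z ^ 2 ≤ s1.card * Λ)
    (hw : ∀ z ∈ s3, ∑ x ∈ s1, w x z ^ 2 ≤ s1.card * Λ)
    (ht : ∑ y ∈ s2, ∑ z ∈ s3, |t y z| ≤ K) :
    |∑ x ∈ s1, ∑ y ∈ s2, ∑ z ∈ s3, G x y z * (u x y * w x z * t y z)| ≤ M * (s1.card * Λ) * K := by
  have hc : 0 ≤ M * (s1.card * Λ) := by positivity
  calc |∑ x ∈ s1, ∑ y ∈ s2, ∑ z ∈ s3, G x y z * (u x y * w x z * t y z)|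
      ≤ ∑ x ∈ s1, ∑ y ∈ s2, ∑ z ∈ s3, |G x y z * (u x y * w x z * t y z)| := by
        refine (abs_sum_le_sum_abs _ _).trans (sum_le_sum fun x _ => ?_)
        refine (abs_sum_le_sum_abs _ _).trans (sum_le_sum fun y _ => ?_)
        exact abs_sum_le_sum_abs _ _
    _ = ∑ y ∈ s2, ∑ z ∈ s3, ∑ x ∈ s1, |G x y z * (u x y * w x z * t y z)| := by
        rw [sum_comm]
        exact sum_congr rfl fun y _ => sum_comm
    _ ≤ ∑ y ∈ s2, ∑ z ∈ s3, M * (s1.card * Λ) * |t y z| := by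
        refine sum_le_sum fun y hy => sum_le_sum fun z hz => ?_
        have h1 : ∀ x ∈ s1, |G x y z * (u x y * w x z * t y z)|
            ≤ M * |t y z| * ((G x y z ^ 2 + w x z ^ 2) / 2) := by
          intro x hx
          have e1 : |G x y z * (u x y * w x z * t y z)|
              = |u x y| * |t y z| * (|G x y z| * |w x z|) := by
            rw [abs_mul, abs_mul, abs_mul]; ring
          have e2 : |G x y z| * |w x z| ≤ (G x y z ^ 2 + w x z ^ 2) / 2 := by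
            have := two_mul_le_add_sq |G x y z| |w x z|
            rw [sq_abs, sq_abs] at this
            linarith
          rw [e1]
          exact mul_le_mul (mul_le_mul_of_nonneg_right (hu x hx y hy) (abs_nonneg _)) e2
            (by positivity) (by positivity)
        refine (sum_le_sum h1).trans ?_
        rw [← mul_sum]
        have h2 : ∑ x ∈ s1, (G x y z ^ 2 + w x z ^ 2) / 2 ≤ s1.card * Λ := by
          rw [← sum_div, sum_add_distrib]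
          have := hG y hy z hz
          have := hw z hz
          linarith
        calc M * |t y z| * ∑ x ∈ s1, (G x y z ^ 2 + w x z ^ 2) / 2
            ≤ M * |t y z| * (s1.card * Λ) := mul_le_mul_of_nonneg_left h2 (by positivity)
          _ = _ := by ring
    _ = M * (s1.card * Λ) * ∑ y ∈ s2, ∑ z ∈ s3, |t y z| := by
        simp only [mul_sum]
    _ ≤ _ := mul_le_mul_of_nonneg_left ht hc

/-- **The final remainder at fixed `x0`.** -/
theorem rem_fixed {δ e M Λ H : ℝ} (he0 : 0 ≤ e) (he1 : e ≤ 1) (hM : 0 ≤ M)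
    (hΛ : 0 ≤ Λ) (hH : 0 < H) {G : α → β → γ → ℝ} (hU : Unif δ e s1 s2 s3 G)
    {u : α → β → ℝ} {v : β → γ → ℝ} {w : α → γ → ℝ}
    (hu : ∀ x ∈ s1, ∀ y ∈ s2, |u x y| ≤ M)
    (hG1 : ∀ y ∈ s2, ∀ z ∈ s3, ∑ x ∈ s1, G x y z ^ 2 ≤ s1.card * Λ)
    (hG2 : ∀ x ∈ s1, ∀ z ∈ s3, ∑ y ∈ s2, G x y z ^ 2 ≤ s2.card * Λ)
    (hv : ∀ z ∈ s3, ∑ y ∈ s2, v y z ^ 2 ≤ s2.card * Λ)
    (hw : ∀ z ∈ s3, ∑ x ∈ s1, w x z ^ 2 ≤ s1.card * Λ) :
    |∑ x ∈ s1, ∑ y ∈ s2, ∑ z ∈ s3, G x y z * (u x y * w x z * v y z)| ≤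
      (s1.card : ℝ) * s2.card * s3.card *
        (δ * M * (Λ ^ (1 - e) * H ^ (2 * e)) + 2 * M * Λ ^ 2 / H) := by
  have hsplit : ∑ x ∈ s1, ∑ y ∈ s2, ∑ z ∈ s3, G x y z * (u x y * w x z * v y z)
      = ∑ x ∈ s1, ∑ y ∈ s2, ∑ z ∈ s3, G x y z * (u x y * lo H (w x z) * lo H (v y z))
        + ∑ x ∈ s1, ∑ y ∈ s2, ∑ z ∈ s3, G x y z * (u x y * hi H (w x z) * lo H (v y z))
        + ∑ x ∈ s1, ∑ y ∈ s2, ∑ z ∈ s3, G x y z * (u x y * w x z * hi H (v y z)) := by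
    simp only [← sum_add_distrib]
    refine sum_congr rfl fun x _ => sum_congr rfl fun y _ => sum_congr rfl fun z _ => ?_
    have h1 := lo_add_hi H (w x z)
    have h2 := lo_add_hi H (v y z)
    have h3 : w x z * v y z = lo H (w x z) * lo H (v y z) + hi H (w x z) * lo H (v y z)
        + w x z * hi H (v y z) := by
      calc w x z * v y z = w x z * (lo H (v y z) + hi H (v y z)) := by rw [h2]
        _ = (lo H (w x z) + hi H (w x z)) * lo H (v y z) + w x z * hi H (v y z) := by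
            rw [h1]; ring
        _ = _ := by ring
    calc G x y z * (u x y * w x z * v y z) = G x y z * u x y * (w x z * v y z) := by ring
      _ = _ := by rw [h3]; ring
  have hhi : ∀ t : ℝ, 0 ≤ t ^ 2 / H := fun t => by positivity
  -- main part
  have hmain : |∑ x ∈ s1, ∑ y ∈ s2, ∑ z ∈ s3, G x y z * (u x y * lo H (w x z) * lo H (v y z))|
      ≤ (s1.card : ℝ) * s2.card * s3.card * (δ * M * (Λ ^ (1 - e) * H ^ (2 * e))) := by
    have h := hU u (fun y z => lo H (v y z)) (fun x z => lo H (w x z)) M (Real.sqrt Λ)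
      (Real.sqrt Λ) M H H hM (Real.sqrt_nonneg _) (Real.sqrt_nonneg _) hM hH.le hH.le ?_ hu ?_
      (fun y _ z _ => abs_lo_le hH.le _) ?_ (fun x _ z _ => abs_lo_le hH.le _)
    · refine h.trans (le_of_eq ?_)
      have e1 : M ^ (1 - e) * M ^ e = M := by
        rw [← Real.rpow_add_of_nonneg hM (by linarith) he0, sub_add_cancel, Real.rpow_one]
      have e2 : Real.sqrt Λ ^ (1 - e) * Real.sqrt Λ ^ (1 - e) = Λ ^ (1 - e) := by
        rw [← Real.mul_rpow (Real.sqrt_nonneg _) (Real.sqrt_nonneg _), Real.mul_self_sqrt hΛ]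
      have e3 : H ^ e * H ^ e = H ^ (2 * e) := by
        rw [← Real.rpow_add hH]; congr 1; ring
      calc (s1.card : ℝ) * s2.card * s3.card * (δ * (M ^ (1 - e) * M ^ e)
            * (Real.sqrt Λ ^ (1 - e) * H ^ e) * (Real.sqrt Λ ^ (1 - e) * H ^ e))
          = (s1.card : ℝ) * s2.card * s3.card * (δ * (M ^ (1 - e) * M ^ e)
            * ((Real.sqrt Λ ^ (1 - e) * Real.sqrt Λ ^ (1 - e)) * (H ^ e * H ^ e))) := by ring
        _ = _ := by rw [e1, e2, e3]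
    · calc ∑ x ∈ s1, ∑ y ∈ s2, u x y ^ 2 ≤ ∑ x ∈ s1, ∑ y ∈ s2, M ^ 2 := by
            refine sum_le_sum fun x hx => sum_le_sum fun y hy => ?_
            rw [← sq_abs]
            exact pow_le_pow_left₀ (abs_nonneg _) (hu x hx y hy) 2
        _ = _ := by rw [sum_const, sum_const, nsmul_eq_mul, nsmul_eq_mul]; ring
    · rw [Real.sq_sqrt hΛ, sum_comm]
      calc ∑ z ∈ s3, ∑ y ∈ s2, lo H (v y z) ^ 2 ≤ ∑ z ∈ s3, (s2.card * Λ : ℝ) :=
            sum_le_sum fun z hz => (sum_le_sum fun y _ => lo_sq_le H _).trans (hv z hz)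
        _ = _ := by rw [sum_const, nsmul_eq_mul]; ring
    · rw [Real.sq_sqrt hΛ, sum_comm]
      calc ∑ z ∈ s3, ∑ x ∈ s1, lo H (w x z) ^ 2 ≤ ∑ z ∈ s3, (s1.card * Λ : ℝ) :=
            sum_le_sum fun z hz => (sum_le_sum fun x _ => lo_sq_le H _).trans (hw z hz)
        _ = _ := by rw [sum_const, nsmul_eq_mul]; ring
  -- high parts
  have hv1 : |∑ x ∈ s1, ∑ y ∈ s2, ∑ z ∈ s3, G x y z * (u x y * w x z * hi H (v y z))|
      ≤ M * (s1.card * Λ) * (s2.card * s3.card * Λ / H) := by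
    refine high_part hM hΛ hu hG1 hw ?_
    calc ∑ y ∈ s2, ∑ z ∈ s3, |hi H (v y z)| ≤ ∑ y ∈ s2, ∑ z ∈ s3, v y z ^ 2 / H :=
          sum_le_sum fun y _ => sum_le_sum fun z _ => abs_hi_le hH _
      _ = (∑ z ∈ s3, ∑ y ∈ s2, v y z ^ 2) / H := by rw [sum_comm]; simp only [sum_div]
      _ ≤ (∑ z ∈ s3, (s2.card * Λ : ℝ)) / H := by
          gcongr with z hz
          exact hv z hz
      _ = _ := by rw [sum_const, nsmul_eq_mul]; ring
  have hw1 : |∑ x ∈ s1, ∑ y ∈ s2, ∑ z ∈ s3, G x y z * (u x y * hi H (w x z) * lo H (v y z))|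
      ≤ M * (s2.card * Λ) * (s1.card * s3.card * Λ / H) := by
    have h := high_part (s1 := s2) (s2 := s1) (s3 := s3) (K := s1.card * s3.card * Λ / H) hM hΛ
      (G := fun y x z => G x y z) (u := fun y x => u x y) (w := fun y z => lo H (v y z))
      (t := fun x z => hi H (w x z)) (fun y hy x hx => hu x hx y hy)
      (fun x hx z hz => hG2 x hx z hz)
      (fun z hz => (sum_le_sum fun y _ => lo_sq_le H _).trans (hv z hz)) ?_
    · rw [sum_comm] at h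
      refine le_trans (le_of_eq ?_) h
      congr 1
      refine sum_congr rfl fun x _ => sum_congr rfl fun y _ => sum_congr rfl fun z _ => ?_
      ring
    · calc ∑ x ∈ s1, ∑ z ∈ s3, |hi H (w x z)| ≤ ∑ x ∈ s1, ∑ z ∈ s3, w x z ^ 2 / H :=
            sum_le_sum fun x _ => sum_le_sum fun z _ => abs_hi_le hH _
        _ = (∑ z ∈ s3, ∑ x ∈ s1, w x z ^ 2) / H := by rw [sum_comm]; simp only [sum_div]
        _ ≤ (∑ z ∈ s3, (s1.card * Λ : ℝ)) / H := by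
            gcongr with z hz
            exact hw z hz
        _ = _ := by rw [sum_const, nsmul_eq_mul]; ring
  rw [hsplit]
  refine (abs_add_three _ _ _).trans ?_
  calc _ ≤ (s1.card : ℝ) * s2.card * s3.card * (δ * M * (Λ ^ (1 - e) * H ^ (2 * e)))
        + M * (s2.card * Λ) * (s1.card * s3.card * Λ / H)
        + M * (s1.card * Λ) * (s2.card * s3.card * Λ / H) := by linarith
    _ = _ := by ring

end fixed

/-- Uniformity is stable under multiplication by edge functions bounded by `1`. -/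
theorem Unif.mul {α β γ : Type*} {δ e : ℝ} {s1 : Finset α} {s2 : Finset β} {s3 : Finset γ}
    {G : α → β → γ → ℝ} (h : Unif δ e s1 s2 s3 G) {m12 : α → β → ℝ} {m13 : α → γ → ℝ}
    {m23 : β → γ → ℝ} (h12 : ∀ x ∈ s1, ∀ y ∈ s2, |m12 x y| ≤ 1)
    (h13 : ∀ x ∈ s1, ∀ z ∈ s3, |m13 x z| ≤ 1) (h23 : ∀ y ∈ s2, ∀ z ∈ s3, |m23 y z| ≤ 1) :
    Unif δ e s1 s2 s3 (fun x y z => G x y z * (m12 x y * m13 x z * m23 y z)) := by
  intro u v w a b c A B C ha hb hc hA hB hC hu hu' hv hv' hw hw'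
  have hsq : ∀ s t : ℝ, |s| ≤ 1 → (s * t) ^ 2 ≤ t ^ 2 := fun s t hs => by
    rw [mul_pow]
    have h1 : s ^ 2 ≤ 1 := by rw [← sq_abs]; exact pow_le_one₀ (abs_nonneg _) hs
    calc s ^ 2 * t ^ 2 ≤ 1 * t ^ 2 := mul_le_mul_of_nonneg_right h1 (sq_nonneg _)
      _ = t ^ 2 := one_mul _
  have hab : ∀ s t D : ℝ, |s| ≤ 1 → |t| ≤ D → |s * t| ≤ D := fun s t D hs ht => by
    rw [abs_mul]
    calc |s| * |t| ≤ 1 * |t| := mul_le_mul_of_nonneg_right hs (abs_nonneg _)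
      _ ≤ D := by linarith
  have := h (fun x y => m12 x y * u x y) (fun y z => m23 y z * v y z)
    (fun x z => m13 x z * w x z) a b c A B C ha hb hc hA hB hC
    ((sum_le_sum fun x hx => sum_le_sum fun y hy => hsq _ _ (h12 x hx y hy)).trans hu)
    (fun x hx y hy => hab _ _ _ (h12 x hx y hy) (hu' x hx y hy))
    ((sum_le_sum fun y hy => sum_le_sum fun z hz => hsq _ _ (h23 y hy z hz)).trans hv)
    (fun y hy z hz => hab _ _ _ (h23 y hy z hz) (hv' y hy z hz))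
    ((sum_le_sum fun x hx => sum_le_sum fun z hz => hsq _ _ (h13 x hx z hz)).trans hw)
    (fun x hx z hz => hab _ _ _ (h13 x hx z hz) (hw' x hx z hz))
  refine le_trans (le_of_eq ?_) this
  congr 1
  refine sum_congr rfl fun x _ => sum_congr rfl fun y _ => sum_congr rfl fun z _ => ?_
  ring

/-! ### The local form -/

/-- Hypotheses on one four-dimensional box for the final remainder. -/
structure RemHyp (k : ℕ) (m : Bx) (δ e M Λ : ℝ) (G0 G1 G2 F3 : Pt → ℝ) : Prop where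
  unif : Unif δ e (iv k m.2.1) (iv k m.2.2.1) (iv k m.2.2.2) (fun x y z => G0 (x, y, z))
  line01 : ∀ x2 ∈ iv k m.2.2.1, ∀ x3 ∈ iv k m.2.2.2,
    ∑ x1 ∈ iv k m.2.1, G0 (x1, x2, x3) ^ 2 ≤ 2 ^ k * Λ
  line02 : ∀ x1 ∈ iv k m.2.1, ∀ x3 ∈ iv k m.2.2.2,
    ∑ x2 ∈ iv k m.2.2.1, G0 (x1, x2, x3) ^ 2 ≤ 2 ^ k * Λ
  line12 : ∀ x0 ∈ iv k m.1, ∀ x3 ∈ iv k m.2.2.2,
    ∑ x2 ∈ iv k m.2.2.1, G1 (x0, x2, x3) ^ 2 ≤ 2 ^ k * Λ
  line21 : ∀ x0 ∈ iv k m.1, ∀ x3 ∈ iv k m.2.2.2,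
    ∑ x1 ∈ iv k m.2.1, G2 (x0, x1, x3) ^ 2 ≤ 2 ^ k * Λ
  bdd : ∀ x0 ∈ iv k m.1, ∀ x1 ∈ iv k m.2.1, ∀ x2 ∈ iv k m.2.2.1, |F3 (x0, x1, x2)| ≤ M

theorem hs_sq_mul (k : ℕ) (x : ℤ) (t : ℝ) : (hs k x * t) ^ 2 = t ^ 2 := by
  rw [mul_pow, sq (hs k x), hs_mul_self, one_mul]

/-- **The final remainder on one box.** -/
theorem loc_rem {k : ℕ} {m : Bx} {δ e M Λ H : ℝ} (he0 : 0 ≤ e) (he1 : e ≤ 1)
    (hM : 0 ≤ M) (hΛ : 0 ≤ Λ) (hH : 0 < H) {G0 G1 G2 F3 : Pt → ℝ}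
    (h : RemHyp k m δ e M Λ G0 G1 G2 F3) :
    |loc k m G0 G1 G2 F3| ≤
      16 ^ k * (δ * M * (Λ ^ (1 - e) * H ^ (2 * e)) + 2 * M * Λ ^ 2 / H) := by
  set R := δ * M * (Λ ^ (1 - e) * H ^ (2 * e)) + 2 * M * Λ ^ 2 / H with hR
  have hc : ∀ j : ℤ, ((iv k j).card : ℝ) = 2 ^ k := fun j => by rw [card_iv]; push_cast; rfl
  have hfix : ∀ x0 ∈ iv k m.1, |∑ x1 ∈ iv k m.2.1, ∑ x2 ∈ iv k m.2.2.1, ∑ x3 ∈ iv k m.2.2.2,
      hs k x0 * hs k x1 * hs k x2 * hs k x3 * prd G0 G1 G2 F3 x0 x1 x2 x3| ≤ 8 ^ k * R := by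
    intro x0 hx0
    have key := rem_fixed (s1 := iv k m.2.1) (s2 := iv k m.2.2.1) (s3 := iv k m.2.2.2)
      (M := M) (Λ := Λ) (H := H) he0 he1 hM hΛ hH h.unif
      (u := fun x1 x2 => hs k x1 * F3 (x0, x1, x2)) (v := fun x2 x3 => hs k x2 * G1 (x0, x2, x3))
      (w := fun x1 x3 => hs k x3 * G2 (x0, x1, x3))
      (fun x1 h1 x2 h2 => by rw [abs_mul, abs_hs, one_mul]; exact h.bdd x0 hx0 x1 h1 x2 h2)
      (fun x2 h2 x3 h3 => by rw [hc]; exact h.line01 x2 h2 x3 h3)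
      (fun x1 h1 x3 h3 => by rw [hc]; exact h.line02 x1 h1 x3 h3)
      (fun x3 h3 => by simp only [hs_sq_mul, hc]; exact h.line12 x0 hx0 x3 h3)
      (fun x3 h3 => by simp only [hs_sq_mul, hc]; exact h.line21 x0 hx0 x3 h3)
    rw [hc, hc, hc] at key
    have e8 : (2 : ℝ) ^ k * 2 ^ k * 2 ^ k = 8 ^ k := by
      rw [← mul_pow, ← mul_pow]; norm_num
    rw [e8, ← hR] at key
    refine le_trans (le_of_eq ?_) key
    have e1 : ∑ x1 ∈ iv k m.2.1, ∑ x2 ∈ iv k m.2.2.1, ∑ x3 ∈ iv k m.2.2.2,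
        hs k x0 * hs k x1 * hs k x2 * hs k x3 * prd G0 G1 G2 F3 x0 x1 x2 x3
        = hs k x0 * ∑ x1 ∈ iv k m.2.1, ∑ x2 ∈ iv k m.2.2.1, ∑ x3 ∈ iv k m.2.2.2,
          G0 (x1, x2, x3) * (hs k x1 * F3 (x0, x1, x2) * (hs k x3 * G2 (x0, x1, x3))
            * (hs k x2 * G1 (x0, x2, x3))) := by
      simp only [mul_sum]
      refine sum_congr rfl fun x1 _ => sum_congr rfl fun x2 _ => sum_congr rfl fun x3 _ => ?_
      unfold prd
      ring
    rw [e1, abs_mul, abs_hs, one_mul]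
  calc |loc k m G0 G1 G2 F3|
      ≤ ∑ x0 ∈ iv k m.1, |∑ x1 ∈ iv k m.2.1, ∑ x2 ∈ iv k m.2.2.1, ∑ x3 ∈ iv k m.2.2.2,
          hs k x0 * hs k x1 * hs k x2 * hs k x3 * prd G0 G1 G2 F3 x0 x1 x2 x3| :=
        abs_sum_le_sum_abs _ _
    _ ≤ ∑ x0 ∈ iv k m.1, 8 ^ k * R := sum_le_sum hfix
    _ = 16 ^ k * R := by
        rw [sum_const, nsmul_eq_mul, hc, ← mul_assoc, ← mul_pow]; norm_num

/-- The number of boxes. -/
theorem card_bxs_le (n : ℕ) (R : Bx) (o : ℤ) (k : ℕ) : (bxs n R o k).card ≤ 8 ^ (n - k) := by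
  have h : (bxs n R o k).card ≤ (iv (n - k) R.2.1 ×ˢ iv (n - k) R.2.2.1 ×ˢ
      iv (n - k) R.2.2.2).card := by
    refine Finset.card_le_card_of_injOn (fun m => m.2) ?_ ?_
    · intro m hm
      simp only [bxs, coe_filter, mem_product, Set.mem_ofPred_eq] at hm
      simp only [coe_product, Set.mem_prod, mem_coe]
      exact hm.1.2
    · intro m hm m' hm' he
      replace he : m.2 = m'.2 := he
      simp only [bxs, coe_filter, mem_product, Set.mem_ofPred_eq] at hm hm'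
      have h1 := hm.2
      have h2 := hm'.2
      have e1 : m.2.1 = m'.2.1 := by rw [he]
      have e2 : m.2.2.1 = m'.2.2.1 := by rw [he]
      have e3 : m.2.2.2 = m'.2.2.2 := by rw [he]
      refine Prod.ext ?_ he
      linarith
  refine h.trans (le_of_eq ?_)
  rw [card_product, card_product, card_iv, card_iv, card_iv, ← mul_pow, ← mul_pow]
  norm_num

/-- A bound on every box gives a bound for the sum over all boxes and scales. -/
theorem totK_le_of_loc {n : ℕ} {R : Bx} {o : ℤ} {F0 F1 F2 F3 : ℕ → Pt → ℝ} {c : ℝ} (hc : 0 ≤ c)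
    (h : ∀ k ∈ Icc 1 n, ∀ m ∈ bxs n R o k, |loc k m (F0 k) (F1 k) (F2 k) (F3 k)| ≤ 16 ^ k * c) :
    totK n R o F0 F1 F2 F3 ≤ n * 8 ^ n * c := by
  unfold totK
  calc ∑ k ∈ Icc 1 n, (2 ^ k : ℝ)⁻¹ * ∑ m ∈ bxs n R o k, |loc k m (F0 k) (F1 k) (F2 k) (F3 k)|
      ≤ ∑ k ∈ Icc 1 n, 8 ^ n * c := by
        refine sum_le_sum fun k hk => ?_
        have h1 : ∑ m ∈ bxs n R o k, |loc k m (F0 k) (F1 k) (F2 k) (F3 k)|
            ≤ 8 ^ (n - k) * (16 ^ k * c) := by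
          refine (sum_le_card_nsmul _ _ _ (h k hk)).trans ?_
          rw [nsmul_eq_mul]
          refine mul_le_mul_of_nonneg_right ?_ (by positivity)
          exact_mod_cast card_bxs_le n R o k
        have h2 : (2 ^ k : ℝ)⁻¹ * (8 ^ (n - k) * (16 ^ k * c)) = 8 ^ n * c := by
          have hk' := (mem_Icc.mp hk).2
          have e : (8 : ℝ) ^ n = 8 ^ (n - k) * 8 ^ k := by rw [← pow_add]; congr 1; omega
          have e16 : (16 : ℝ) ^ k = 2 ^ k * 8 ^ k := by rw [← mul_pow]; norm_num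
          rw [e, e16]
          have : (2 : ℝ) ^ k ≠ 0 := by positivity
          field_simp
        rw [← h2]
        exact mul_le_mul_of_nonneg_left h1 (by positivity)
    _ = _ := by rw [sum_const, nsmul_eq_mul, Nat.card_Icc, Nat.add_sub_cancel]; ring

/-- **Block B7a.** The final remainder of the walk. -/
theorem totK_rem {n : ℕ} {R : Bx} {o : ℤ} {δ e M Λ H : ℝ} (hδ : 0 ≤ δ) (he0 : 0 ≤ e) (he1 : e ≤ 1)
    (hM : 0 ≤ M) (hΛ : 0 ≤ Λ) (hH : 0 < H) {G0 G1 G2 F3 : ℕ → Pt → ℝ}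
    (h : ∀ k ∈ Icc 1 n, ∀ m ∈ bxs n R o k, RemHyp k m δ e M Λ (G0 k) (G1 k) (G2 k) (F3 k)) :
    totK n R o G0 G1 G2 F3 ≤
      n * 8 ^ n * (δ * M * (Λ ^ (1 - e) * H ^ (2 * e)) + 2 * M * Λ ^ 2 / H) :=
  totK_le_of_loc (by positivity) fun k hk m hm => loc_rem he0 he1 hM hΛ hH (h k hk m hm)

end

end Vale.Agent.P141.PL.H317
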