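import Vale.Agent.P141.PL.H315.Export
import Vale.Agent.P141.PL.H317.Rem

/-!
# P141, block B7a: uniformity of the births-only process in the number form `Unif`
-/

namespace Vale.Agent.P141.PL.H317

open Finset

noncomputable section

/-- From averages with the product weight to the number form. -/
theorem unif_of_avg {δ e : ℝ} (hδ : 0 ≤ δ) (he0 : 0 ≤ e) (he1 : e ≤ 1) {A B C : Finset ℤ}
    (hA : A.Nonempty) (hB : B.Nonempty) (hC : C.Nonempty) {G : Pt → ℝ}
    (h : ∀ u : H315.Tri, |H315.avg (A ×ˢ B ×ˢ C) (fun q => G q * H315.atm u q)| ≤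
      δ * (H315.Nm e (A ×ˢ B) u.1 * H315.Nm e (A ×ˢ C) u.2.1 * H315.Nm e (B ×ˢ C) u.2.2)) :
    Unif δ e A B C (fun x y z => G (x, y, z)) := by
  intro u v w a b c A' B' C' ha hb hc hA' hB' hC' hu hu' hv hv' hw hw'
  have pA : (0 : ℝ) < A.card := by exact_mod_cast card_pos.mpr hA
  have pB : (0 : ℝ) < B.card := by exact_mod_cast card_pos.mpr hB
  have pC : (0 : ℝ) < C.card := by exact_mod_cast card_pos.mpr hC
  have hN : ∀ (X Y : Finset ℤ) (f : ℤ → ℤ → ℝ) (s S : ℝ), (0 : ℝ) < X.card → (0 : ℝ) < Y.card →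
      0 ≤ s → 0 ≤ S → ∑ x ∈ X, ∑ y ∈ Y, f x y ^ 2 ≤ (X.card : ℝ) * Y.card * s ^ 2 →
      (∀ x ∈ X, ∀ y ∈ Y, |f x y| ≤ S) →
      H315.Nm e (X ×ˢ Y) (fun p => f p.1 p.2) ≤ s ^ (1 - e) * S ^ e := by
    intro X Y f s S hX hY hs hS h1 h2
    unfold H315.Nm
    have h3 : H315.avg (X ×ˢ Y) (fun p => f p.1 p.2 ^ 2) ≤ s ^ 2 := by
      unfold H315.avg
      rw [sum_product, card_product, inv_mul_le_iff₀ (by push_cast; positivity)]
      push_cast
      exact h1
    have h4 : 0 ≤ H315.avg (X ×ˢ Y) (fun p => f p.1 p.2 ^ 2) :=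
      H315.avg_nonneg fun _ _ => sq_nonneg _
    have h5 : H315.mx (X ×ˢ Y) (fun p => f p.1 p.2) ≤ S :=
      H315.mx_le hS fun p hp => h2 _ (mem_product.mp hp).1 _ (mem_product.mp hp).2
    refine mul_le_mul ?_ (Real.rpow_le_rpow (H315.mx_nonneg _ _) h5 he0)
      (Real.rpow_nonneg (H315.mx_nonneg _ _) _) (Real.rpow_nonneg hs _)
    calc H315.avg (X ×ˢ Y) (fun p => f p.1 p.2 ^ 2) ^ ((1 - e) / 2)
        ≤ (s ^ 2) ^ ((1 - e) / 2) := Real.rpow_le_rpow h4 h3 (by linarith)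
      _ = s ^ (1 - e) := by
          rw [← Real.rpow_natCast s 2, ← Real.rpow_mul hs]
          congr 1
          push_cast
          ring
  have key := h (fun p => u p.1 p.2, fun p => w p.1 p.2, fun p => v p.1 p.2)
  have e1 : H315.avg (A ×ˢ B ×ˢ C) (fun q => G q * H315.atm
      (fun p => u p.1 p.2, fun p => w p.1 p.2, fun p => v p.1 p.2) q)
      = ((A.card : ℝ) * B.card * C.card)⁻¹ *
        ∑ x ∈ A, ∑ y ∈ B, ∑ z ∈ C, G (x, y, z) * (u x y * w x z * v y z) := by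
    unfold H315.avg
    rw [sum_product, card_product, card_product]
    push_cast
    rw [← mul_assoc]
    congr 1
    refine sum_congr rfl fun x _ => ?_
    rw [sum_product]
    rfl
  rw [e1, abs_mul, abs_of_pos (by positivity), inv_mul_le_iff₀ (by positivity)] at key
  refine key.trans (mul_le_mul_of_nonneg_left ?_ (by positivity))
  have n1 := hN A B u a A' pA pB ha hA' hu hu'
  have n2 := hN A C w c C' pA pC hc hC' hw hw'
  have n3 := hN B C v b B' pB pC hb hB' hv hv'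
  have q1 := H315.Nm_nonneg e (A ×ˢ B) (fun p => u p.1 p.2)
  have q2 := H315.Nm_nonneg e (A ×ˢ C) (fun p => w p.1 p.2)
  have q3 := H315.Nm_nonneg e (B ×ˢ C) (fun p => v p.1 p.2)
  calc δ * (H315.Nm e (A ×ˢ B) (fun p => u p.1 p.2) * H315.Nm e (A ×ˢ C) (fun p => w p.1 p.2)
        * H315.Nm e (B ×ˢ C) (fun p => v p.1 p.2))
      ≤ δ * ((a ^ (1 - e) * A' ^ e) * (c ^ (1 - e) * C' ^ e) * (b ^ (1 - e) * B' ^ e)) := by
        refine mul_le_mul_of_nonneg_left ?_ hδ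
        exact mul_le_mul (mul_le_mul n1 n2 q2 (by positivity)) n3 q3 (by positivity)
    _ = _ := by ring

theorem iv_eq (k : ℕ) (x : ℤ) : iv k (ix k x) = H315.iv k x := rfl

section

open Vale.Agent.P141.H315

variable {δ e : ℝ} {hδ : 0 < δ} {h0 : 0 ≤ e} {h1 : e ≤ 1} {n : ℕ} {F : ℤ × ℤ × ℤ → ℝ}
  (P : Proc (H315.sys δ e hδ h0 h1) n F)
include P

/-- Uniformity of the process on every cube of scale `l ≥ k`, number form, index form of cubes. -/
theorem unif_proc {k l : ℕ} (hk : k ≤ n) (hl : k ≤ l) (m : Pt) :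
    Unif δ e (iv l m.1) (iv l m.2.1) (iv l m.2.2) (fun x y z => P.G k (x, y, z)) := by
  obtain ⟨m1, m2, m3⟩ := m
  have e1 : ∀ j : ℤ, iv l j = H315.iv l (2 ^ l * j) := fun j => by
    unfold iv H315.iv
    rw [Int.mul_ediv_cancel_left _ (by positivity)]
  have hne : ∀ x : ℤ, (H315.iv l x).Nonempty := fun x => ⟨x, H315.self_mem_iv l x⟩
  simp only [e1]
  refine unif_of_avg hδ.le h0 h1 (hne _) (hne _) (hne _) fun u => ?_
  have key := H315.unif_avg P hk hl (2 ^ l * m1, 2 ^ l * m2, 2 ^ l * m3) u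
  unfold H315.wN at key
  rw [H315.Nm_e12, H315.Nm_e13, H315.Nm_e23] at key
  exact key

end

end

end Vale.Agent.P141.PL.H317
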