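import Vale.Agent.P141.PL.H317.CostIx

/-!
# P141: the cost theorem from B5a and the trilinear estimate
-/

namespace Vale.Agent.P141.PL.H317

open Finset Vale.Agent.P141.PL
open Vale.Agent.P141.PL.H315 (Tri atm wt wN cube3 A2)
open Vale.Agent.P141.PL.H990 (stopped q12 q13 q23)
open Vale.Agent.P141.PL.H997 (mat matk dk)

noncomputable section

open scoped Classical

/-- The main part (990's M2): the trilinear estimate summed over `x₀`. -/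
def MainP (P : ℕ → ℝ) : Prop :=
  ∀ (K J : ℕ) (M : Pt) (o : ℤ), |o| = 1 → K < 2 ^ J →
  ∀ (A B C : ℤ → ℕ → ℤ → ℤ → ℝ) (cA cB cC : ℝ) (dA dB dC : ℤ → ℝ) (EA EB EC : ℝ),
    0 ≤ cA → 0 ≤ cB → 0 ≤ cC →
    (∀ x0, 0 ≤ dA x0) → (∀ x0, 0 ≤ dB x0) → (∀ x0, 0 ≤ dC x0) →
    (∀ x0, ∀ k ∈ Icc 1 K, ∀ m ∈ cbs K M k, Cap k m.1 m.2.1 cA (A x0 k) ∧
      Cap k m.2.1 m.2.2 cB (B x0 k) ∧ Cap k m.1 m.2.2 cC (C x0 k)) →
    (∀ x0, Mv K M.1 M.2.1 J (dA x0) (A x0)) → (∀ x0, Mv K M.2.1 M.2.2 J (dB x0) (B x0)) →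
    (∀ x0, Mv K M.1 M.2.2 J (dC x0) (C x0)) →
    ∑ t ∈ Ico (-(M.1 + M.2.1 + M.2.2) - 3) (-(M.1 + M.2.1 + M.2.2)), ∑ x0 ∈ iv K t, dA x0 ≤ EA →
    ∑ t ∈ Ico (-(M.1 + M.2.1 + M.2.2) - 3) (-(M.1 + M.2.1 + M.2.2)), ∑ x0 ∈ iv K t, dB x0 ≤ EB →
    ∑ t ∈ Ico (-(M.1 + M.2.1 + M.2.2) - 3) (-(M.1 + M.2.1 + M.2.2)), ∑ x0 ∈ iv K t, dC x0 ≤ EC →
    ∑ k ∈ Icc 1 K, (2 ^ k : ℝ)⁻¹ * ∑ m ∈ cbs K M k, ∑ x0 ∈ iv k (i0 o m),
      |tri k m (A x0 k) (B x0 k) (C x0 k)| ≤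
        P J * (cA * √(EB * EC) + cB * √(EA * EC) + cC * √(EA * EB))

/-- The polynomial in `J` of the energies. -/
def pJ (J : ℕ) : ℝ := 12 * (1 + J * (J + 1)) * (J + 1)

theorem pJ_nonneg (J : ℕ) : 0 ≤ pJ J := by unfold pJ; positivity

theorem sq_ed (K : ℕ) (s t : ℤ) (u : ℤ × ℤ → ℝ) :
    H588.sq K (ix K s) (ix K t) (ed u) = 4 ^ K * A2 K u s t := by
  unfold H588.sq A2 H315.avg ed
  rw [sum_comm, card_product, H315.card_iv, H315.card_iv, sum_product]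
  have e : (4 : ℝ) ^ K = 2 ^ K * 2 ^ K := by rw [← mul_pow]; norm_num
  rw [e]
  push_cast
  rw [← mul_assoc, mul_inv_cancel₀ (by positivity), one_mul]
  rfl

theorem card_Ico3 (S : ℤ) : (Ico (-S - 3) (-S)).card = 3 := by
  rw [Int.card_Ico]
  have : -S - (-S - 3) = 3 := by ring
  rw [this]; rfl

/-- Both clauses of `Mv` for a killed companion. -/
theorem mv_matk {K J : ℕ} (hJ : K < 2 ^ J) (M1 M2 : ℤ) (a : ℤ → ℤ → ℝ) {R' : ℕ → Pt → Prop}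
    (G : ℕ → Pt → ℝ) (hR : ∀ k l p, k ≤ l → R' l p → R' k p) (x0 : ℤ) :
    Mv K M1 M2 J (dk K M1 M2 J a G x0) (matk a R' G x0) :=
  ⟨fun k hk => H997.sq_matk_le hR hk (by omega), fun j hj => H997.win_matk_le hR hj⟩

/-- the summed energies -/
theorem sum_dk {n : ℕ} {e δ Λ : ℝ} {G : ℕ → Pt → ℝ} (hG : Comp n e δ Λ G) {K J : ℕ}
    (hK : K ≤ n) (hJ : K < 2 ^ J) (s t : ℤ) (u : ℤ × ℤ → ℝ) (S : ℤ) :
    ∑ t' ∈ Ico (-S - 3) (-S), ∑ x0 ∈ iv K t', dk K (ix K s) (ix K t) J (ed u) G x0 ≤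
      pJ J * Λ * 8 ^ K * A2 K u s t := by
  have h := H997.sum_sum_dk_le hG hK hJ.le (ix K s) (ix K t) (ed u) (Ico (-S - 3) (-S))
  rw [card_Ico3, sq_ed] at h
  refine h.trans_eq ?_
  have e : (8 : ℝ) ^ K = 2 ^ K * 4 ^ K := by rw [← mul_pow]; norm_num
  rw [e]
  unfold pJ
  push_cast
  ring

theorem sqrt_mul_EE {W a b : ℝ} (hW : 0 ≤ W) (ha : 0 ≤ a) :
    √(W * a * (W * b)) = W * (√a * √b) := by
  rw [show W * a * (W * b) = W ^ 2 * (a * b) by ring, Real.sqrt_mul (by positivity),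
    Real.sqrt_sq hW, Real.sqrt_mul ha]

/-- **One generation.** -/
theorem gen_cost {n : ℕ} {e δ Λ c P0 : ℝ} {P1 : ℕ → ℝ} (h5 : B5a n e δ Λ c P0) (hm : MainP P1)
    (hP1 : ∀ J, 0 ≤ P1 J) (hΛ : 0 ≤ Λ) {G1 G2 G3 : ℕ → Pt → ℝ}
    (hG1 : Comp n e δ Λ G1) (hG2 : Comp n e δ Λ G2) (hG3 : Comp n e δ Λ G3) {o : ℤ}
    (ho : |o| = 1) {K : ℕ} (hK : K ≤ n) {J : ℕ} (hJ : n < 2 ^ J) (x : Pt) (u : Tri) :
    ∑ k ∈ Icc 1 K, (2 ^ k : ℝ)⁻¹ * ∑ m ∈ cbs K (cx K x) k with ¬ stopped u K k (crn k m),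
      |loc k (i0 o m, m) (atm u) (G1 k) (G2 k) (G3 k)| ≤
        (P0 + P1 J * (3 * (pJ J * Λ * c))) * wt δ e (cube3 K x) u := by
  obtain ⟨R1, R2, R3, c1, c2, c3, hR1, hR2, hR3, hc1, hc2, hc3, h3, h1, h2, hcap, herr⟩ :=
    h5 G1 G2 G3 hG1 hG2 hG3 o ho K hK x u
  have hJK : K < 2 ^ J := by omega
  -- the main part
  have hmain := hm K J (cx K x) o ho hJK (fun x0 => matk (ed u.1) R3 G3 x0)
    (fun x0 => matk (ed u.2.2) R1 G1 x0) (fun x0 => matk (ed u.2.1) R2 G2 x0) c3 c1 c2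
    (dk K (cx K x).1 (cx K x).2.1 J (ed u.1) G3) (dk K (cx K x).2.1 (cx K x).2.2 J (ed u.2.2) G1)
    (dk K (cx K x).1 (cx K x).2.2 J (ed u.2.1) G2)
    (pJ J * Λ * 8 ^ K * q12 u K x) (pJ J * Λ * 8 ^ K * q23 u K x) (pJ J * Λ * 8 ^ K * q13 u K x)
    hc3 hc1 hc2 (fun x0 => H997.dk_nonneg _ _ _ _ _ _ _) (fun x0 => H997.dk_nonneg _ _ _ _ _ _ _)
    (fun x0 => H997.dk_nonneg _ _ _ _ _ _ _)
    (fun x0 k hk m hm => hcap k hk x0 m hm)
    (fun x0 => mv_matk hJK _ _ _ _ hR3 x0) (fun x0 => mv_matk hJK _ _ _ _ hR1 x0)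
    (fun x0 => mv_matk hJK _ _ _ _ hR2 x0)
    (sum_dk hG3 hK hJK _ _ _ _) (sum_dk hG1 hK hJK _ _ _ _) (sum_dk hG2 hK hJK _ _ _ _)
  have hW : 0 ≤ pJ J * Λ * 8 ^ K := by
    have := pJ_nonneg J
    positivity
  rw [sqrt_mul_EE hW (H990.q23_nonneg u K x), sqrt_mul_EE hW (H990.q12_nonneg u K x),
    sqrt_mul_EE hW (H990.q12_nonneg u K x)] at hmain
  have hw : wt δ e (cube3 K x) u = 8 ^ K * wN δ e K x u := by
    rw [H315.wt_eq, H315.card_cube3]; push_cast; ring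
  have hmain2 : c3 * (pJ J * Λ * 8 ^ K * (√(q23 u K x) * √(q13 u K x))) +
      c1 * (pJ J * Λ * 8 ^ K * (√(q12 u K x) * √(q13 u K x))) +
      c2 * (pJ J * Λ * 8 ^ K * (√(q12 u K x) * √(q23 u K x))) ≤
        3 * (pJ J * Λ * c) * wt δ e (cube3 K x) u := by
    rw [hw]
    have a1 := mul_le_mul_of_nonneg_left h3 hW
    have a2 := mul_le_mul_of_nonneg_left h1 hW
    have a3 := mul_le_mul_of_nonneg_left h2 hW
    nlinarith [a1, a2, a3]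
  have hmain3 := hmain.trans (mul_le_mul_of_nonneg_left hmain2 (hP1 J))
  -- the splitting
  have hsplit : ∀ k ∈ Icc 1 K, (2 ^ k : ℝ)⁻¹ *
      ∑ m ∈ cbs K (cx K x) k with ¬ stopped u K k (crn k m),
        |loc k (i0 o m, m) (atm u) (G1 k) (G2 k) (G3 k)| ≤
      (2 ^ k : ℝ)⁻¹ * (∑ m ∈ cbs K (cx K x) k with ¬ stopped u K k (crn k m),
      ∑ x0 ∈ iv k (i0 o m),
        |tri k m (mat (ed u.1) G3 x0 k) (mat (ed u.2.2) G1 x0 k) (mat (ed u.2.1) G2 x0 k) -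
          tri k m (matk (ed u.1) R3 G3 x0 k) (matk (ed u.2.2) R1 G1 x0 k)
            (matk (ed u.2.1) R2 G2 x0 k)|) +
      (2 ^ k : ℝ)⁻¹ * ∑ m ∈ cbs K (cx K x) k, ∑ x0 ∈ iv k (i0 o m),
        |tri k m (matk (ed u.1) R3 G3 x0 k) (matk (ed u.2.2) R1 G1 x0 k)
          (matk (ed u.2.1) R2 G2 x0 k)| := by
    intro k _
    rw [← mul_add]
    refine mul_le_mul_of_nonneg_left ?_ (by positivity)
    calc _ ≤ ∑ m ∈ cbs K (cx K x) k with ¬ stopped u K k (crn k m), ∑ x0 ∈ iv k (i0 o m),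
          (|tri k m (mat (ed u.1) G3 x0 k) (mat (ed u.2.2) G1 x0 k) (mat (ed u.2.1) G2 x0 k) -
          tri k m (matk (ed u.1) R3 G3 x0 k) (matk (ed u.2.2) R1 G1 x0 k)
            (matk (ed u.2.1) R2 G2 x0 k)| + |tri k m (matk (ed u.1) R3 G3 x0 k)
            (matk (ed u.2.2) R1 G1 x0 k) (matk (ed u.2.1) R2 G2 x0 k)|) := by
          refine sum_le_sum fun m _ => (abs_loc_le k o m u G1 G2 G3).trans
            (sum_le_sum fun x0 _ => ?_)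
          have := abs_add_le (tri k m (mat (ed u.1) G3 x0 k) (mat (ed u.2.2) G1 x0 k)
            (mat (ed u.2.1) G2 x0 k) - tri k m (matk (ed u.1) R3 G3 x0 k)
            (matk (ed u.2.2) R1 G1 x0 k) (matk (ed u.2.1) R2 G2 x0 k))
            (tri k m (matk (ed u.1) R3 G3 x0 k) (matk (ed u.2.2) R1 G1 x0 k)
              (matk (ed u.2.1) R2 G2 x0 k))
          rwa [sub_add_cancel] at this
      _ ≤ _ := by
          simp only [sum_add_distrib]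
          refine add_le_add le_rfl ?_
          exact sum_le_sum_of_subset_of_nonneg (filter_subset _ _) fun m _ _ =>
            sum_nonneg fun _ _ => abs_nonneg _
  refine (sum_le_sum hsplit).trans ?_
  rw [sum_add_distrib]
  calc _ ≤ P0 * wt δ e (cube3 K x) u + P1 J * (3 * (pJ J * Λ * c) * wt δ e (cube3 K x) u) :=
        add_le_add herr hmain3
    _ = _ := by ring

/-- **Cost theorem** from B5a and the main part. -/
theorem cost_of {n : ℕ} {e δ Λ c P0 : ℝ} {P1 : ℕ → ℝ} (h5 : B5a n e δ Λ c P0) (hm : MainP P1)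
    (hP1 : ∀ J, 0 ≤ P1 J) (hP0 : 0 ≤ P0) (hc : 0 ≤ c) (hΛ : 0 ≤ Λ) (hδ : 0 ≤ δ) (he : 0 < e)
    (he1 : e ≤ 1) {J : ℕ} (hJ : n < 2 ^ J) :
    CostTh n e δ Λ ((P0 + P1 J * (3 * (pJ J * Λ * c))) * (4 / e)) := by
  intro G1 G2 G3 hG1 hG2 hG3 o ho K hK x u
  have hP : 0 ≤ P0 + P1 J * (3 * (pJ J * Λ * c)) := by
    have := pJ_nonneg J
    have := hP1 J
    positivity
  have hgen := H990.generations hδ he he1 hP u
    (fun k z => if k = 0 then 0 else |L0 o k z u (G1 k) (G2 k) (G3 k)|) n (fun K hK x => by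
      refine le_trans (le_of_eq ?_) (gen_cost h5 hm hP1 hΛ hG1 hG2 hG3 ho hK hJ x u)
      rw [range_eq_Ico, sum_eq_sum_Ico_succ_bot (Nat.succ_pos K)]
      simp only [if_true, sum_const_zero, zero_add]
      have e0 : Ico 1 (K + 1) = Icc 1 K := by ext k; simp only [mem_Ico, mem_Icc]; omega
      have e1 : Ico (0 + 1) (K.succ) = Icc 1 K := by ext k; simp only [mem_Ico, mem_Icc]; omega
      rw [e1]
      refine sum_congr rfl fun k hk => ?_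
      rw [mem_Icc] at hk
      have hk0 : k ≠ 0 := by omega
      simp only [if_neg hk0]
      rw [sum_filter, sum_filter]
      have h1 := sum_cube_cx hk.2 x (fun m => if ¬ stopped u K k (crn k m) then
        (16 ^ k : ℝ)⁻¹ * |loc k (i0 o m, m) (atm u) (G1 k) (G2 k) (G3 k)| else 0)
      have h2 : ∀ z ∈ cube3 K x, (if ¬ stopped u K k z then |L0 o k z u (G1 k) (G2 k) (G3 k)|
          else 0) = if ¬ stopped u K k (crn k (cx k z)) then (16 ^ k : ℝ)⁻¹ *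
            |loc k (i0 o (cx k z), cx k z) (atm u) (G1 k) (G2 k) (G3 k)| else 0 := by
        intro z _
        rw [stopped_crn, L0_eq, abs_mul, abs_of_pos (by positivity : (0 : ℝ) < (16 ^ k : ℝ)⁻¹)]
      rw [sum_congr rfl h2, h1, mul_sum, mul_sum]
      refine sum_congr rfl fun m _ => ?_
      split_ifs
      · simp
      · have e2 : (16 : ℝ) ^ k = 8 ^ k * 2 ^ k := by rw [← mul_pow]; norm_num
        rw [e2]
        field_simp) K hK x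
  have hwt := H315.wt_nonneg hδ e (cube3 K x) u
  refine le_trans (le_of_eq ?_) (hgen.trans (mul_le_mul_of_nonneg_right ?_ hwt))
  · rw [range_eq_Ico, sum_eq_sum_Ico_succ_bot (Nat.succ_pos K)]
    simp only [if_true, sum_const_zero, zero_add]
    have e1 : Ico (0 + 1) (K.succ) = Icc 1 K := by ext k; simp only [mem_Ico, mem_Icc]; omega
    rw [e1]
    refine sum_congr rfl fun k hk => sum_congr rfl fun z _ => ?_
    rw [mem_Icc] at hk
    rw [if_neg (by omega)]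
  · have := H990.inv_gen_le he he1
    rw [div_eq_mul_one_div]
    exact mul_le_mul_of_nonneg_left this hP

end

end Vale.Agent.P141.PL.H317
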