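import Vale.Agent.P141.PL.Defs1
import Vale.Agent.P141.PL.H990.Gen
import Vale.Agent.P141.PL.H997.M3

/-!
# P141: the cost theorem, statements

`B5a` = kill sets, caps and the error of killing; `Star` = the trilinear estimate with caps;
`CostTh` = the cost theorem for atoms on face `0` (fixed `n`, `e`, `δ`, `Λ`).
-/

namespace Vale.Agent.P141.PL.H317

open Finset Vale.Agent.P141.PL
open Vale.Agent.P141.PL.H315 (Tri atm wt wN cube3)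
open Vale.Agent.P141.PL.H990 (stopped q12 q13 q23)
open Vale.Agent.P141.PL.H997 (mat matk)

noncomputable section

open scoped Classical

/-- The indices of the cubes of scale `k ≤ N` inside the cube of scale `N` with indices `R`. -/
def cbs (N : ℕ) (R : Pt) (k : ℕ) : Finset Pt :=
  iv (N - k) R.1 ×ˢ iv (N - k) R.2.1 ×ˢ iv (N - k) R.2.2

/-- The index of the interval of `x₀` of the box of offset `o` over the cube with indices `m`. -/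
def i0 (o : ℤ) (m : Pt) : ℤ := o - 2 - m.1 - m.2.1 - m.2.2

/-- The corner of a cube. -/
def crn (k : ℕ) (m : Pt) : Pt := (2 ^ k * m.1, 2 ^ k * m.2.1, 2 ^ k * m.2.2)

/-- The edge functions of an atom, curried. -/
def ed (u : ℤ × ℤ → ℝ) : ℤ → ℤ → ℝ := fun x y => u (x, y)

/-- The bilinear form of `A` on the block is at most `c 2 ^ k` (804's `Cap`). -/
def Cap (k : ℕ) (m1 m2 : ℤ) (c : ℝ) (A : ℤ → ℤ → ℝ) : Prop :=
  ∀ u v : ℤ → ℝ, (∑ x ∈ iv k m1, ∑ y ∈ iv k m2, u x * v y * A x y) ^ 2 ≤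
    (c * 2 ^ k) ^ 2 * (∑ x ∈ iv k m1, u x ^ 2) * ∑ y ∈ iv k m2, v y ^ 2

/-- **B5a**: kill sets `Rⱼ`, increasing when the scale decreases, such that the killed inputs have
caps, and such that the error of killing is small on the cubes which are not stopped. -/
def B5a (n : ℕ) (e δ Λ c P : ℝ) : Prop :=
  ∀ G1 G2 G3 : ℕ → Pt → ℝ, Comp n e δ Λ G1 → Comp n e δ Λ G2 → Comp n e δ Λ G3 →
  ∀ o : ℤ, |o| = 1 → ∀ K ≤ n, ∀ (x : Pt) (u : Tri),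
  ∃ (R1 R2 R3 : ℕ → Pt → Prop) (c1 c2 c3 : ℝ),
    (∀ k l p, k ≤ l → R1 l p → R1 k p) ∧ (∀ k l p, k ≤ l → R2 l p → R2 k p) ∧
    (∀ k l p, k ≤ l → R3 l p → R3 k p) ∧
    0 ≤ c1 ∧ 0 ≤ c2 ∧ 0 ≤ c3 ∧
    c3 * (√(q13 u K x) * √(q23 u K x)) ≤ c * wN δ e K x u ∧
    c1 * (√(q12 u K x) * √(q13 u K x)) ≤ c * wN δ e K x u ∧
    c2 * (√(q12 u K x) * √(q23 u K x)) ≤ c * wN δ e K x u ∧
    (∀ k ∈ Icc 1 K, ∀ x0 : ℤ, ∀ m ∈ cbs K (cx K x) k,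
      Cap k m.1 m.2.1 c3 (matk (ed u.1) R3 G3 x0 k) ∧
      Cap k m.2.1 m.2.2 c1 (matk (ed u.2.2) R1 G1 x0 k) ∧
      Cap k m.1 m.2.2 c2 (matk (ed u.2.1) R2 G2 x0 k)) ∧
    ∑ k ∈ Icc 1 K, (2 ^ k : ℝ)⁻¹ * ∑ m ∈ cbs K (cx K x) k with ¬ stopped u K k (crn k m),
      ∑ x0 ∈ iv k (i0 o m),
        |tri k m (mat (ed u.1) G3 x0 k) (mat (ed u.2.2) G1 x0 k) (mat (ed u.2.1) G2 x0 k) -
          tri k m (matk (ed u.1) R3 G3 x0 k) (matk (ed u.2.2) R1 G1 x0 k)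
            (matk (ed u.2.1) R2 G2 x0 k)| ≤
      P * wt δ e (cube3 K x) u

/-- The cost of an atom in the cube of scale `K` of `x`, face `0`. -/
def cost0 (o : ℤ) (G1 G2 G3 : ℕ → Pt → ℝ) (K : ℕ) (x : Pt) (u : Tri) : ℝ :=
  ∑ k ∈ Icc 1 K, (2 ^ k : ℝ)⁻¹ * ∑ m ∈ cbs K (cx K x) k,
    |loc k (i0 o m, m) (atm u) (G1 k) (G2 k) (G3 k)|

/-- **The cost theorem**, face `0`. -/
def CostTh (n : ℕ) (e δ Λ P : ℝ) : Prop :=
  ∀ G1 G2 G3 : ℕ → Pt → ℝ, Comp n e δ Λ G1 → Comp n e δ Λ G2 → Comp n e δ Λ G3 →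
  ∀ o : ℤ, |o| = 1 → ∀ K ≤ n, ∀ (x : Pt) (u : Tri),
    ∑ k ∈ Icc 1 K, ∑ z ∈ cube3 K x, |L0 o k z u (G1 k) (G2 k) (G3 k)| ≤
      P * wt δ e (cube3 K x) u

/-- Energies and windows of a moving input on the root square (804's `Mv`). -/
def Mv (N : ℕ) (R S : ℤ) (J : ℕ) (D : ℝ) (F : ℕ → ℤ → ℤ → ℝ) : Prop :=
  (∀ k ≤ N, H588.sq N R S (F k) ≤ D) ∧
  ∀ j < J, ∑ i ∈ range (2 ^ (J - 1 - j)),
    H588.sq N R S (F (N - min ((2 * i + 1) * 2 ^ j) N) - F (N - min ((2 * i) * 2 ^ j) N)) ≤ D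

/-- The trilinear estimate with caps (804's `star`), in the form used here. -/
def Star (P : ℕ → ℝ) : Prop :=
  ∀ (N J : ℕ) (R : Pt) (c : ℕ → ℤ), H588.Pl c → N < 2 ^ J →
  ∀ (A B C : ℕ → ℤ → ℤ → ℝ) (cA cB cC DA DB DC : ℝ), 0 ≤ cA → 0 ≤ cB → 0 ≤ cC →
    (∀ k ∈ Icc 1 N, ∀ m ∈ cbs N R k, Cap k m.1 m.2.1 cA (A k) ∧ Cap k m.2.1 m.2.2 cB (B k) ∧
      Cap k m.1 m.2.2 cC (C k)) →
    Mv N R.1 R.2.1 J DA A → Mv N R.2.1 R.2.2 J DB B → Mv N R.1 R.2.2 J DC C →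
    ∑ k ∈ Icc 1 N, (2 ^ k : ℝ)⁻¹ * ∑ m ∈ cbs N R k with m.1 + m.2.1 + m.2.2 = c k,
      |tri k m (A k) (B k) (C k)| ≤
        P J * (cA * √(DB * DC) + cB * √(DA * DC) + cC * √(DA * DB))

end

end Vale.Agent.P141.PL.H317
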