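import Vale.Agent.P141.PL.H317.CostDefs
import Vale.Agent.P141.PL.H990.Meas

/-!
# P141: the cost theorem, index bookkeeping
-/

namespace Vale.Agent.P141.PL.H317

open Finset Vale.Agent.P141.PL
open Vale.Agent.P141.PL.H315 (Tri atm wt wN cube3)
open Vale.Agent.P141.PL.H990 (stopped q12 q13 q23 big)
open Vale.Agent.P141.PL.H997 (mat matk)

noncomputable section

open scoped Classical

theorem iv_eq_iv (k : ℕ) (x : ℤ) : H315.iv k x = iv k (ix k x) := rfl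

theorem cube3_eq (k : ℕ) (x : Pt) : cube3 k x = cb k (cx k x) := rfl

/-- Sum over an interval of a function of the index of the small interval. -/
theorem sum_iv_ix {k K : ℕ} (hk : k ≤ K) (M : ℤ) (f : ℤ → ℝ) :
    ∑ x ∈ iv K M, f (ix k x) = 2 ^ k * ∑ y ∈ iv (K - k) M, f y := by
  have e : K = (K - k) + k := by omega
  conv_lhs => rw [e, H990.sum_iv_add]
  rw [mul_sum]
  refine sum_congr rfl fun y _ => ?_
  have h : ∀ x ∈ iv k y, f (ix k x) = f y := fun x hx => by rw [mem_iv.mp hx]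
  rw [sum_congr rfl h, sum_const, card_iv, nsmul_eq_mul]
  push_cast
  ring

/-- Sum over a cube of a function of the index of the small cube. -/
theorem sum_cube_cx {k K : ℕ} (hk : k ≤ K) (x : Pt) (f : Pt → ℝ) :
    ∑ z ∈ cube3 K x, f (cx k z) = 8 ^ k * ∑ m ∈ cbs K (cx K x) k, f m := by
  rw [cube3_eq]
  unfold cb cbs
  rw [sum_product, sum_product]
  have h1 : ∀ z ∈ iv K (cx K x).1, ∑ w ∈ iv K (cx K x).2.1 ×ˢ iv K (cx K x).2.2, f (cx k (z, w)) =
      2 ^ k * (2 ^ k * ∑ b ∈ iv (K - k) (cx K x).2.1, ∑ c ∈ iv (K - k) (cx K x).2.2,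
        f (ix k z, b, c)) := by
    intro z _
    rw [sum_product]
    have h2 : ∀ y ∈ iv K (cx K x).2.1, ∑ w ∈ iv K (cx K x).2.2, f (cx k (z, y, w)) =
        2 ^ k * ∑ c ∈ iv (K - k) (cx K x).2.2, f (ix k z, ix k y, c) := by
      intro y _
      exact sum_iv_ix hk _ fun c => f (ix k z, ix k y, c)
    rw [sum_congr rfl h2, ← mul_sum]
    congr 1
    exact sum_iv_ix hk _ fun b => ∑ c ∈ iv (K - k) (cx K x).2.2, f (ix k z, b, c)
  rw [sum_congr rfl h1, ← mul_sum, ← mul_sum,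
    sum_iv_ix hk _ fun a => ∑ b ∈ iv (K - k) (cx K x).2.1, ∑ c ∈ iv (K - k) (cx K x).2.2, f (a, b, c)]
  have e : (8 : ℝ) ^ k = 2 ^ k * (2 ^ k * 2 ^ k) := by
    rw [← mul_pow, ← mul_pow]; norm_num
  rw [e]
  have h3 : ∀ a ∈ iv (K - k) (cx K x).1, ∑ w ∈ iv (K - k) (cx K x).2.1 ×ˢ iv (K - k) (cx K x).2.2,
      f (a, w) = ∑ b ∈ iv (K - k) (cx K x).2.1, ∑ c ∈ iv (K - k) (cx K x).2.2, f (a, b, c) :=
    fun a _ => by rw [sum_product]
  rw [sum_congr rfl h3]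
  ring

theorem crn_mem (k : ℕ) (z : Pt) : crn k (cx k z) ∈ cube3 k z := by
  rw [cube3_eq, mem_cb]
  unfold crn cx
  have h : ∀ a : ℤ, ix k (2 ^ k * a) = a := by
    intro a
    unfold ix
    rw [mul_comm]
    exact Int.mul_ediv_cancel _ (by positivity)
  simp only [h]

/-- `stopped` only depends on the cube. -/
theorem stopped_crn (u : Tri) {K k : ℕ} (z : Pt) :
    stopped u K k (crn k (cx k z)) ↔ stopped u K k z := by
  unfold stopped
  have h : ∀ m, k ≤ m → m ≤ K → (big u K m (crn k (cx k z)) ↔ big u K m z) := by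
    intro m hm hK
    exact H990.big_congr u K m hK z _ (H315.gz.sub_le hm z (crn_mem k z))
  constructor
  · rintro ⟨m, h1, h2, h3⟩
    exact ⟨m, h1, h2, (h m h1 h2).mp h3⟩
  · rintro ⟨m, h1, h2, h3⟩
    exact ⟨m, h1, h2, (h m h1 h2).mpr h3⟩

/-- The atom as 321's `Atom`. -/
def toAtom (u : Tri) : Atom := ⟨ed u.1, ed u.2.1, ed u.2.2⟩

theorem toAtom_fn (u : Tri) : (toAtom u).fn = atm u := rfl

/-- The local form of an atom is a sum over `x₀`. -/
theorem abs_loc_le (k : ℕ) (o : ℤ) (m : Pt) (u : Tri) (G1 G2 G3 : ℕ → Pt → ℝ) :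
    |loc k (i0 o m, m) (atm u) (G1 k) (G2 k) (G3 k)| ≤ ∑ x0 ∈ iv k (i0 o m),
      |tri k m (mat (ed u.1) G3 x0 k) (mat (ed u.2.2) G1 x0 k) (mat (ed u.2.1) G2 x0 k)| := by
  have h := loc_atom k (i0 o m, m) (toAtom u) (G1 k) (G2 k) (G3 k)
  rw [toAtom_fn] at h
  rw [h]
  refine (abs_sum_le_sum_abs _ _).trans (sum_le_sum fun x0 _ => ?_)
  rw [abs_mul, abs_hs, one_mul]
  exact le_rfl

/-- 321's normalised local form. -/
theorem L0_eq (o : ℤ) (k : ℕ) (z : Pt) (u : Tri) (G1 G2 G3 : Pt → ℝ) :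
    L0 o k z u G1 G2 G3 = (16 ^ k : ℝ)⁻¹ * loc k (i0 o (cx k z), cx k z) (atm u) G1 G2 G3 := rfl

end

end Vale.Agent.P141.PL.H317
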