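import Vale.Agent.P141.H317.Chain

/-!
# P141: killing a path keeps its dyadic window sums (360's L3 in abstract form)

`G k z` is a path (time `k`, point `z`), `κ z` the kill time, `f k z = G k z` for `k < κ z` and `0`
afterwards.  If the dyadic window sums of `G` are at most `D` and the initial energy is at most `E`,
then the window sums of `f` are at most `3 E + (1 + 3 J (J + 1)) D`.
-/

namespace Vale.Agent.P141.PL.H317

open Finset Vale.Agent.P141.H317

noncomputable section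

variable {Z : Type*}

/-- the killed path -/
def killed (κ : Z → ℕ) (G : ℕ → Z → ℝ) (k : ℕ) (z : Z) : ℝ := if k < κ z then G k z else 0

theorem sq_le_eta {a b η : ℝ} (hη : 0 < η) :
    a ^ 2 ≤ (1 + η) * b ^ 2 + (1 + η⁻¹) * (a - b) ^ 2 := by
  have h3 : 0 ≤ η * (b - η⁻¹ * (a - b)) ^ 2 := mul_nonneg hη.le (sq_nonneg _)
  have h4 : η * (b - η⁻¹ * (a - b)) ^ 2 = η * b ^ 2 - 2 * (b * (a - b)) + η⁻¹ * (a - b) ^ 2 := by
    field_simp
    ring
  nlinarith [h3, h4]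

/-- the largest multiple of `2 ^ j` below the kill time `κ ≥ 1` -/
def anc (j κ : ℕ) : ℕ := (κ - 1) / 2 ^ j * 2 ^ j

theorem anc_cases (j κ : ℕ) : (anc j κ = anc (j + 1) κ) ∨
    (anc (j + 1) κ = 2 * ((κ - 1) / 2 ^ (j + 1)) * 2 ^ j ∧
      anc j κ = (2 * ((κ - 1) / 2 ^ (j + 1)) + 1) * 2 ^ j) := by
  unfold anc
  set t := κ - 1
  have h1 : t / 2 ^ (j + 1) = t / 2 ^ j / 2 := by rw [pow_succ, Nat.div_div_eq_div_mul]
  have e1 : t / 2 ^ j / 2 * 2 ^ (j + 1) = 2 * (t / 2 ^ j / 2) * 2 ^ j := by rw [pow_succ]; ring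
  rcases Nat.even_or_odd (t / 2 ^ j) with h | h
  · left
    obtain ⟨r, hr⟩ := h
    rw [h1, e1]
    congr 1
    omega
  · right
    obtain ⟨r, hr⟩ := h
    rw [h1, e1]
    refine ⟨rfl, ?_⟩
    congr 1
    omega

theorem anc_top {J κ : ℕ} (h1 : 1 ≤ κ) (h2 : κ ≤ 2 ^ J) : anc J κ = 0 := by
  unfold anc
  rw [Nat.div_eq_of_lt (by omega), zero_mul]

/-- The energy at the dyadic ancestors of the kill time. -/
theorem anc_energy (S : Finset Z) {ω : Z → ℝ} (hω : ∀ z ∈ S, 0 ≤ ω z) (G : ℕ → Z → ℝ) (κ : Z → ℕ)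
    (J : ℕ) {D E : ℝ} (hS : ∀ z ∈ S, 1 ≤ κ z ∧ κ z ≤ 2 ^ J)
    (hD : ∀ j, j < J → ∑ i ∈ range (2 ^ (J - 1 - j)), ∑ z ∈ S,
      ω z * (G ((2 * i + 1) * 2 ^ j) z - G ((2 * i) * 2 ^ j) z) ^ 2 ≤ D)
    (hE : ∑ z ∈ S, ω z * G 0 z ^ 2 ≤ E) :
    ∀ j, j ≤ J → ∑ z ∈ S, ω z * G (anc j (κ z)) z ^ 2 ≤ 3 * E + 3 * J * (J + 1) * D := by
  have hE0 : 0 ≤ E := le_trans (sum_nonneg fun z hz => mul_nonneg (hω z hz) (sq_nonneg _)) hE
  rcases Nat.eq_zero_or_pos J with rfl | hJ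
  · intro j hj
    have hj0 : j = 0 := by omega
    subst hj0
    have : ∑ z ∈ S, ω z * G (anc 0 (κ z)) z ^ 2 = ∑ z ∈ S, ω z * G 0 z ^ 2 := by
      refine sum_congr rfl fun z hz => ?_
      rw [anc_top (hS z hz).1 (hS z hz).2]
    rw [this]
    push_cast
    linarith
  have hJ' : (0 : ℝ) < J := by exact_mod_cast hJ
  have hD0 : 0 ≤ D := le_trans (sum_nonneg fun i _ => sum_nonneg fun z hz =>
    mul_nonneg (hω z hz) (sq_nonneg _)) (hD 0 hJ)
  set c : ℝ := 1 + (J : ℝ)⁻¹ with hc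
  have hc1 : 1 ≤ c := by
    have : 0 ≤ (J : ℝ)⁻¹ := by positivity
    linarith
  set A : ℕ → ℝ := fun j => ∑ z ∈ S, ω z * G (anc j (κ z)) z ^ 2 with hA
  have hstep : ∀ j, j < J → A j ≤ c * A (j + 1) + (1 + J) * D := by
    intro j hj
    have h1 : ∀ z ∈ S, ω z * G (anc j (κ z)) z ^ 2 ≤ c * (ω z * G (anc (j + 1) (κ z)) z ^ 2)
        + (1 + J) * (ω z * (G (anc j (κ z)) z - G (anc (j + 1) (κ z)) z) ^ 2) := by
      intro z hz
      have h2 := sq_le_eta (a := G (anc j (κ z)) z) (b := G (anc (j + 1) (κ z)) z)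
        (show (0 : ℝ) < (J : ℝ)⁻¹ by positivity)
      rw [inv_inv] at h2
      have h3 := mul_le_mul_of_nonneg_left h2 (hω z hz)
      calc _ ≤ _ := h3
        _ = _ := by ring
    have h4 : ∑ z ∈ S, ω z * (G (anc j (κ z)) z - G (anc (j + 1) (κ z)) z) ^ 2 ≤ D := by
      refine le_trans ?_ (hD j hj)
      rw [sum_comm]
      refine sum_le_sum fun z hz => ?_
      rcases anc_cases j (κ z) with h | ⟨h5, h6⟩
      · rw [h, sub_self]
        simp only [ne_eq, OfNat.ofNat_ne_zero, not_false_eq_true, zero_pow, mul_zero]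
        exact sum_nonneg fun i _ => mul_nonneg (hω z hz) (sq_nonneg _)
      · rw [h5, h6]
        have hmem : (κ z - 1) / 2 ^ (j + 1) ∈ range (2 ^ (J - 1 - j)) := by
          rw [mem_range, Nat.div_lt_iff_lt_mul (by positivity), ← pow_add]
          have := hS z hz
          have e : J - 1 - j + (j + 1) = J := by omega
          rw [e]
          omega
        exact single_le_sum (f := fun i => ω z * (G ((2 * i + 1) * 2 ^ j) z
          - G ((2 * i) * 2 ^ j) z) ^ 2) (fun i _ => mul_nonneg (hω z hz) (sq_nonneg _)) hmem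
    calc A j ≤ ∑ z ∈ S, (c * (ω z * G (anc (j + 1) (κ z)) z ^ 2)
        + (1 + J) * (ω z * (G (anc j (κ z)) z - G (anc (j + 1) (κ z)) z) ^ 2)) := sum_le_sum h1
      _ = c * A (j + 1) + (1 + J) * ∑ z ∈ S, ω z *
          (G (anc j (κ z)) z - G (anc (j + 1) (κ z)) z) ^ 2 := by
          rw [sum_add_distrib, ← mul_sum, ← mul_sum]
      _ ≤ _ := by
          have := mul_le_mul_of_nonneg_left h4 (by positivity : (0 : ℝ) ≤ 1 + J)
          linarith
  have hAJ : A J ≤ E := by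
    refine le_trans (le_of_eq (sum_congr rfl fun z hz => ?_)) hE
    rw [anc_top (hS z hz).1 (hS z hz).2]
  -- downward induction
  have hind : ∀ t, t ≤ J → A (J - t) ≤ c ^ t * E + (1 + J) * D * t * c ^ t := by
    intro t
    induction t with
    | zero => intro _; simpa using hAJ
    | succ t ih =>
      intro ht
      have h1 := ih (by omega)
      have h2 := hstep (J - (t + 1)) (by omega)
      have e1 : J - (t + 1) + 1 = J - t := by omega
      rw [e1] at h2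
      have h3 := mul_le_mul_of_nonneg_left h1 (by linarith : (0 : ℝ) ≤ c)
      have h4 : (1 : ℝ) ≤ c ^ (t + 1) := one_le_pow₀ hc1
      have h5 : 0 ≤ (1 + (J : ℝ)) * D := by positivity
      have h6 := mul_le_mul_of_nonneg_left h4 h5
      push_cast
      calc A (J - (t + 1)) ≤ c * A (J - t) + (1 + J) * D := h2
        _ ≤ c * (c ^ t * E + (1 + J) * D * t * c ^ t) + (1 + J) * D := by linarith
        _ = c ^ (t + 1) * E + (1 + J) * D * t * c ^ (t + 1) + (1 + J) * D * 1 := by ring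
        _ ≤ c ^ (t + 1) * E + (1 + J) * D * t * c ^ (t + 1) + (1 + J) * D * c ^ (t + 1) := by
            linarith
        _ = _ := by ring
  intro j hj
  have h := hind (J - j) (by omega)
  have e1 : J - (J - j) = j := by omega
  rw [e1] at h
  have h7 : c ^ (J - j) ≤ 3 :=
    (pow_le_pow_right₀ hc1 (Nat.sub_le J j)).trans (one_add_inv_pow_le J)
  have h8 : ((J - j : ℕ) : ℝ) ≤ J := by exact_mod_cast Nat.sub_le J j
  have h9 : 0 ≤ ((J - j : ℕ) : ℝ) := Nat.cast_nonneg _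
  have h10 : 0 ≤ c ^ (J - j) := by positivity
  calc A j ≤ c ^ (J - j) * E + (1 + J) * D * ((J - j : ℕ) : ℝ) * c ^ (J - j) := h
    _ ≤ 3 * E + (1 + J) * D * J * 3 := by
        have h11 := mul_le_mul_of_nonneg_right h7 hE0
        have h12 : ((J - j : ℕ) : ℝ) * c ^ (J - j) ≤ J * 3 := mul_le_mul h8 h7 h10 hJ'.le
        have h13 := mul_le_mul_of_nonneg_left h12 (by positivity : (0 : ℝ) ≤ (1 + (J : ℝ)) * D)
        nlinarith
    _ = _ := by ring

/-- **Killed paths have bounded window sums.** -/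
theorem killed_window (S : Finset Z) {ω : Z → ℝ} (hω : ∀ z ∈ S, 0 ≤ ω z) (G : ℕ → Z → ℝ)
    (κ : Z → ℕ) (J : ℕ) {D E : ℝ}
    (hD : ∀ j, j < J → ∑ i ∈ range (2 ^ (J - 1 - j)), ∑ z ∈ S,
      ω z * (G ((2 * i + 1) * 2 ^ j) z - G ((2 * i) * 2 ^ j) z) ^ 2 ≤ D)
    (hE : ∑ z ∈ S, ω z * G 0 z ^ 2 ≤ E) :
    ∀ j, j < J → ∑ i ∈ range (2 ^ (J - 1 - j)), ∑ z ∈ S,
      ω z * (killed κ G ((2 * i + 1) * 2 ^ j) z - killed κ G ((2 * i) * 2 ^ j) z) ^ 2
        ≤ 3 * E + (1 + 3 * J * (J + 1)) * D := by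
  classical
  intro j hj
  set S' := S.filter fun z => 1 ≤ κ z ∧ κ z ≤ 2 ^ J with hS'
  have hsub : S' ⊆ S := filter_subset _ _
  have key := anc_energy S' (fun z hz => hω z (hsub hz)) G κ J (D := D) (E := E)
    (fun z hz => (mem_filter.mp hz).2)
    (fun j hj => (sum_le_sum fun i _ => sum_le_sum_of_subset_of_nonneg hsub fun z hz _ =>
      mul_nonneg (hω z hz) (sq_nonneg _)).trans (hD j hj))
    ((sum_le_sum_of_subset_of_nonneg hsub fun z hz _ =>
      mul_nonneg (hω z hz) (sq_nonneg _)).trans hE) j hj.le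
  have hpt : ∀ z ∈ S, ∑ i ∈ range (2 ^ (J - 1 - j)),
      ω z * (killed κ G ((2 * i + 1) * 2 ^ j) z - killed κ G ((2 * i) * 2 ^ j) z) ^ 2
      ≤ ∑ i ∈ range (2 ^ (J - 1 - j)), ω z * (G ((2 * i + 1) * 2 ^ j) z
          - G ((2 * i) * 2 ^ j) z) ^ 2
        + if 1 ≤ κ z ∧ κ z ≤ 2 ^ J then ω z * G (anc j (κ z)) z ^ 2 else 0 := by
    intro z hz
    have hw := hω z hz
    -- termwise
    have hterm : ∀ i ∈ range (2 ^ (J - 1 - j)),
        ω z * (killed κ G ((2 * i + 1) * 2 ^ j) z - killed κ G ((2 * i) * 2 ^ j) z) ^ 2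
        ≤ ω z * (G ((2 * i + 1) * 2 ^ j) z - G ((2 * i) * 2 ^ j) z) ^ 2
          + if (2 * i) * 2 ^ j < κ z ∧ κ z ≤ (2 * i + 1) * 2 ^ j
              then ω z * G ((2 * i) * 2 ^ j) z ^ 2 else 0 := by
      intro i _
      have hle : (2 * i) * 2 ^ j ≤ (2 * i + 1) * 2 ^ j := by gcongr; omega
      have h0 : 0 ≤ ω z * (G ((2 * i + 1) * 2 ^ j) z - G ((2 * i) * 2 ^ j) z) ^ 2 :=
        mul_nonneg hw (sq_nonneg _)
      unfold killed
      by_cases h1 : (2 * i + 1) * 2 ^ j < κ z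
      · have h2 : (2 * i) * 2 ^ j < κ z := lt_of_le_of_lt hle h1
        have h3 : ¬((2 * i) * 2 ^ j < κ z ∧ κ z ≤ (2 * i + 1) * 2 ^ j) := by omega
        rw [if_pos h1, if_pos h2, if_neg h3, add_zero]
      · by_cases h2 : (2 * i) * 2 ^ j < κ z
        · rw [if_neg h1, if_pos h2, if_pos ⟨h2, not_lt.mp h1⟩, zero_sub, neg_sq]
          linarith
        · have h3 : ¬((2 * i) * 2 ^ j < κ z ∧ κ z ≤ (2 * i + 1) * 2 ^ j) := fun h => h2 h.1
          rw [if_neg h1, if_neg h2, if_neg h3, sub_zero]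
          simp only [ne_eq, OfNat.ofNat_ne_zero, not_false_eq_true, zero_pow, mul_zero, add_zero]
          exact h0
    refine (sum_le_sum hterm).trans ?_
    rw [sum_add_distrib]
    gcongr
    -- at most one index contributes
    by_cases hex : ∃ i ∈ range (2 ^ (J - 1 - j)),
        (2 * i) * 2 ^ j < κ z ∧ κ z ≤ (2 * i + 1) * 2 ^ j
    · obtain ⟨i₀, hi₀, h1, h2⟩ := hex
      have hi₀' := mem_range.mp hi₀
      have hp : 0 < 2 ^ j := by positivity
      have hanc : ∀ i, (2 * i) * 2 ^ j < κ z → κ z ≤ (2 * i + 1) * 2 ^ j →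
          (κ z - 1) / 2 ^ j = 2 * i := by
        intro i h3 h4
        refine Nat.div_eq_of_lt_le ?_ ?_
        · omega
        · have e : (2 * i + 1) * 2 ^ j = (2 * i) * 2 ^ j + 2 ^ j := by ring
          rw [e] at h4 ⊢
          omega
      have hκ : 1 ≤ κ z ∧ κ z ≤ 2 ^ J := by
        refine ⟨by omega, h2.trans ?_⟩
        calc (2 * i₀ + 1) * 2 ^ j ≤ (2 * 2 ^ (J - 1 - j)) * 2 ^ j := by
              gcongr; omega
          _ = 2 ^ J := by
              rw [← pow_succ', ← pow_add]; congr 1; omega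
      rw [if_pos hκ]
      rw [sum_eq_single_of_mem i₀ hi₀]
      · rw [if_pos ⟨h1, h2⟩]
        unfold anc
        rw [hanc i₀ h1 h2]
      · intro i _ hne
        rw [if_neg]
        rintro ⟨h3, h4⟩
        have := hanc i h3 h4
        have := hanc i₀ h1 h2
        omega
    · push Not at hex
      rw [sum_eq_zero]
      · split_ifs
        · exact mul_nonneg hw (sq_nonneg _)
        · exact le_rfl
      · intro i hi
        rw [if_neg]
        rintro ⟨h3, h4⟩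
        exact absurd h4 (not_le.mpr (hex i hi h3))
  rw [sum_comm]
  calc ∑ z ∈ S, ∑ i ∈ range (2 ^ (J - 1 - j)),
      ω z * (killed κ G ((2 * i + 1) * 2 ^ j) z - killed κ G ((2 * i) * 2 ^ j) z) ^ 2
      ≤ ∑ z ∈ S, (∑ i ∈ range (2 ^ (J - 1 - j)), ω z * (G ((2 * i + 1) * 2 ^ j) z
          - G ((2 * i) * 2 ^ j) z) ^ 2
        + if 1 ≤ κ z ∧ κ z ≤ 2 ^ J then ω z * G (anc j (κ z)) z ^ 2 else 0) := sum_le_sum hpt
    _ = ∑ i ∈ range (2 ^ (J - 1 - j)), ∑ z ∈ S, ω z * (G ((2 * i + 1) * 2 ^ j) z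
          - G ((2 * i) * 2 ^ j) z) ^ 2
        + ∑ z ∈ S', ω z * G (anc j (κ z)) z ^ 2 := by
        rw [sum_add_distrib, sum_comm, hS', sum_filter]
    _ ≤ _ := by
        have := hD j hj
        linarith

end

end Vale.Agent.P141.PL.H317
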