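import Vale.Agent.P141.PL.H317.Cost
import Vale.Agent.P141.PL.H990.Main

/-!
# P141: `StCost` from `Star` and `B5a` (constants)
-/

namespace Vale.Agent.P141.PL.H317

open Finset Vale.Agent.P141.PL
open Vale.Agent.P141.PL.H315 (Tri atm wt wN cube3)

noncomputable section

theorem mainP_of_star {P : ℕ → ℝ} (hS : Star P) (hP : ∀ J, 0 ≤ P J) : MainP P := by
  intro K J M o ho hKJ A B C cA cB cC dA dB dC EA EB EC hcA hcB hcC _ _ _ hcap hA hB hC hEA hEB hEC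
  exact H990.main_part hS hKJ (hP J) ho.le M A B C hcA hcB hcC dA dB dC
    (fun k hk x0 m hm => hcap x0 k hk m hm) hA hB hC hEA hEB hEC

/-- **Cost theorem** from `B5a` and `Star`. -/
theorem cost_of_star {n : ℕ} {e δ Λ c P0 : ℝ} {P1 : ℕ → ℝ} (h5 : B5a n e δ Λ c P0) (hS : Star P1)
    (hP1 : ∀ J, 0 ≤ P1 J) (hP0 : 0 ≤ P0) (hc : 0 ≤ c) (hΛ : 0 ≤ Λ) (hδ : 0 ≤ δ) (he : 0 < e)
    (he1 : e ≤ 1) {J : ℕ} (hJ : n < 2 ^ J) :
    CostTh n e δ Λ ((P0 + P1 J * (3 * (pJ J * Λ * c))) * (4 / e)) :=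
  cost_of h5 (mainP_of_star hS hP1) hP1 hP0 hc hΛ hδ he he1 hJ

theorem ee_pos' (n : ℕ) : 0 < ee n := by
  unfold ee
  have : 0 ≤ Real.log n := Real.log_natCast_nonneg n
  positivity

theorem ee_le' (n : ℕ) : ee n ≤ 1 / 2 := by
  unfold ee
  have : 0 ≤ Real.log n := Real.log_natCast_nonneg n
  rw [inv_le_comm₀ (by positivity) (by norm_num)]
  norm_num
  exact this

/-- `J = size n` is at most `2 (2 + log n)`. -/
theorem size_le (n : ℕ) (hn : 1 ≤ n) : ((Nat.size n : ℕ) : ℝ) + 1 ≤ 2 * (2 + Real.log n) := by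
  have h1 : 2 ^ (Nat.size n - 1) ≤ n := by
    have h2 : Nat.size n - 1 < Nat.size n := by
      have : 0 < Nat.size n := Nat.size_pos.mpr (by omega)
      omega
    exact Nat.lt_size.mp h2
  have h3 : ((2 : ℝ) ^ (Nat.size n - 1)) ≤ n := by exact_mod_cast h1
  have h4 := Real.log_le_log (by positivity) h3
  rw [Real.log_pow] at h4
  have h5 : (0.6931471803 : ℝ) < Real.log 2 := Real.log_two_gt_d9
  have h6 : ((Nat.size n - 1 : ℕ) : ℝ) = (Nat.size n : ℝ) - 1 := by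
    have : 1 ≤ Nat.size n := Nat.size_pos.mpr (by omega)
    push_cast [Nat.cast_sub this]
    ring
  rw [h6] at h4
  have h7 : 0 ≤ Real.log n := Real.log_natCast_nonneg n
  have h8 : (1 : ℝ) ≤ Nat.size n := by
    exact_mod_cast (Nat.size_pos.mpr (by omega) : 0 < Nat.size n)
  nlinarith

theorem lt_size (n : ℕ) : n < 2 ^ Nat.size n := Nat.lt_size_self n

/-- **StCost** from `Star` (with polynomial bound in `J`) and `B5a` with `c` absolute and the error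
constant linear in `Λ`. -/
theorem stCost_of {C1 c CP : ℝ} {q1 : ℕ} (hC1 : 0 ≤ C1) (hc : 0 ≤ c) (hCP : 0 ≤ CP)
    (hS : Star fun J => C1 * ((J : ℝ) + 1) ^ q1)
    (h5 : ∀ n : ℕ, 1 ≤ n → ∀ δ Λ : ℝ, 0 < δ → 1 ≤ Λ → B5a n (ee n) δ Λ c (CP * Λ)) : StCost := by
  refine ⟨(CP + C1 * 2 ^ q1 * (36 * 8 * c)) * 4, q1 + 4, by positivity, ?_⟩
  intro n hn δ Λ hδ hΛ o ho G1 G2 G3 hG1 hG2 hG3 K hK x u
  set e := ee n with he
  have he0 : 0 < e := ee_pos' n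
  have he1 : e ≤ 1 := (ee_le' n).trans (by norm_num)
  set J := Nat.size n with hJ
  set L : ℝ := 2 + Real.log n with hL
  have hlog : 0 ≤ Real.log n := Real.log_natCast_nonneg n
  have hL2 : 2 ≤ L := by rw [hL]; linarith
  have h := cost_of_star (h5 n hn δ Λ hδ hΛ) hS (fun J => by positivity) (by positivity) hc
    (by linarith) hδ.le he0 he1 (lt_size n) G1 G2 G3 hG1 hG2 hG3 o ho K hK x u
  refine h.trans (mul_le_mul_of_nonneg_right ?_ (H315.wt_nonneg hδ.le _ _ _))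
  have hinv : 4 / e = 4 * L := by
    rw [he]; unfold ee; rw [div_inv_eq_mul]
  rw [hinv]
  have hJ1 : (J : ℝ) + 1 ≤ 2 * L := size_le n hn
  have hJ0 : (0 : ℝ) ≤ J := Nat.cast_nonneg _
  have hpJ : pJ J ≤ 12 * (2 * L) ^ 3 := by
    unfold pJ
    have h1 : 1 + (J : ℝ) * (J + 1) ≤ (2 * L) ^ 2 := by nlinarith
    calc 12 * (1 + (J : ℝ) * (J + 1)) * (J + 1) ≤ 12 * (2 * L) ^ 2 * (2 * L) := by
          gcongr
      _ = _ := by ring
  have hpw : ((J : ℝ) + 1) ^ q1 ≤ (2 * L) ^ q1 := pow_le_pow_left₀ (by positivity) hJ1 q1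
  have hLΛ : L ≤ L * Λ := by nlinarith
  have hLΛ1 : 1 ≤ L * Λ := by nlinarith
  have hpJ0 := pJ_nonneg J
  -- first term
  have t1 : CP * Λ * L ≤ CP * (L * Λ) ^ (q1 + 4) := by
    have h2 : L * Λ ≤ (L * Λ) ^ (q1 + 4) := le_self_pow₀ hLΛ1 (by omega)
    calc CP * Λ * L = CP * (L * Λ) := by ring
      _ ≤ _ := mul_le_mul_of_nonneg_left h2 hCP
  have t2 : C1 * ((J : ℝ) + 1) ^ q1 * (3 * (pJ J * Λ * c)) * L ≤
      C1 * 2 ^ q1 * (36 * 8 * c) * (L * Λ) ^ (q1 + 4) := by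
    have h3 : L ^ (q1 + 4) * Λ ≤ (L * Λ) ^ (q1 + 4) := by
      rw [mul_pow]
      exact mul_le_mul_of_nonneg_left (le_self_pow₀ hΛ (by omega)) (by positivity)
    calc C1 * ((J : ℝ) + 1) ^ q1 * (3 * (pJ J * Λ * c)) * L
        ≤ C1 * (2 * L) ^ q1 * (3 * (12 * (2 * L) ^ 3 * Λ * c)) * L := by gcongr
      _ = C1 * 2 ^ q1 * (36 * 8 * c) * (L ^ (q1 + 4) * Λ) := by
          rw [mul_pow, mul_pow, pow_add]; ring
      _ ≤ _ := mul_le_mul_of_nonneg_left h3 (by positivity)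
  calc (CP * Λ + C1 * ((J : ℝ) + 1) ^ q1 * (3 * (pJ J * Λ * c))) * (4 * L)
      = 4 * (CP * Λ * L + C1 * ((J : ℝ) + 1) ^ q1 * (3 * (pJ J * Λ * c)) * L) := by ring
    _ ≤ 4 * (CP * (L * Λ) ^ (q1 + 4) + C1 * 2 ^ q1 * (36 * 8 * c) * (L * Λ) ^ (q1 + 4)) := by
        gcongr
    _ = _ := by ring

/-- `(n + 1) ^ ee n ≤ 4`. -/
theorem succ_pow_ee (n : ℕ) (hn : 1 ≤ n) : ((n : ℝ) + 1) ^ ee n ≤ 4 := by
  have hlog : 0 ≤ Real.log n := Real.log_natCast_nonneg n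
  have h0 : (0 : ℝ) < (n : ℝ) + 1 := by positivity
  have h1 : (n : ℝ) + 1 ≤ 2 * n := by
    have : (1 : ℝ) ≤ n := by exact_mod_cast hn
    linarith
  have h2 : Real.log ((n : ℝ) + 1) ≤ Real.log 2 + Real.log n := by
    rw [← Real.log_mul (by norm_num) (by positivity)]
    exact Real.log_le_log h0 h1
  have h3 : Real.log 2 < 0.6931471808 := Real.log_two_lt_d9
  have h4 : Real.log ((n : ℝ) + 1) * ee n ≤ 1 := by
    unfold ee
    rw [← div_eq_mul_inv, div_le_one (by positivity)]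
    linarith
  rw [Real.rpow_def_of_pos h0]
  calc Real.exp (Real.log ((n : ℝ) + 1) * ee n) ≤ Real.exp 1 := Real.exp_le_exp.mpr h4
    _ ≤ 4 := by linarith [Real.exp_one_lt_d9]

/-- Monotonicity of `B5a` in the constants. -/
theorem B5a.mono {n : ℕ} {e δ Λ c c' P P' : ℝ} (h : B5a n e δ Λ c P) (hδ : 0 ≤ δ) (hc : c ≤ c')
    (hP : P ≤ P') : B5a n e δ Λ c' P' := by
  intro G1 G2 G3 hG1 hG2 hG3 o ho K hK x u
  obtain ⟨R1, R2, R3, c1, c2, c3, hR1, hR2, hR3, hc1, hc2, hc3, h3, h1, h2, hcap, herr⟩ :=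
    h G1 G2 G3 hG1 hG2 hG3 o ho K hK x u
  have hw : 0 ≤ wN δ e K x u := by
    have h4 := H315.wt_nonneg hδ e (cube3 K x) u
    rw [H315.wt_eq] at h4
    exact nonneg_of_mul_nonneg_right h4 (H315.card_cube3_pos K x)
  have hcw := mul_le_mul_of_nonneg_right hc hw
  exact ⟨R1, R2, R3, c1, c2, c3, hR1, hR2, hR3, hc1, hc2, hc3, h3.trans hcw, h1.trans hcw,
    h2.trans hcw, hcap,
    herr.trans (mul_le_mul_of_nonneg_right hP (H315.wt_nonneg hδ e (cube3 K x) u))⟩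

/-- **StCost** from `Star` and `B5a` with a free parameter `θ`:
`θ = 1 / (6 (n + 1) ^ 5)`. -/
theorem stCost_of_theta {C1 Cc CE : ℝ} {q1 : ℕ} (hC1 : 0 ≤ C1) (hCc : 0 ≤ Cc) (hCE : 0 ≤ CE)
    (hS : Star fun J => C1 * ((J : ℝ) + 1) ^ q1)
    (h5 : ∀ n : ℕ, 1 ≤ n → ∀ δ Λ θ : ℝ, 0 < δ → 1 ≤ Λ → 0 < θ → θ ≤ 1 →
      B5a n (ee n) δ Λ (Cc * θ ^ (-ee n))
        (CE * ((n : ℝ) + 1) * Λ * (6 * θ * ((n : ℝ) + 1)) ^ ((1 - ee n) / 2))) : StCost := by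
  refine stCost_of (C1 := C1) (c := Cc * (3 * 4 ^ 5)) (CP := CE) (q1 := q1) hC1 (by positivity) hCE
    hS fun n hn δ Λ hδ hΛ => ?_
  have hn1 : (1 : ℝ) ≤ n := by exact_mod_cast hn
  set t : ℝ := (n : ℝ) + 1 with ht
  have ht1 : 1 ≤ t := by linarith
  have ht0 : 0 < t := by linarith
  have he0 := ee_pos' n
  have he1 := ee_le' n
  have hθ : (0 : ℝ) < (6 * t ^ 5)⁻¹ := by positivity
  have hθ1 : (6 * t ^ 5)⁻¹ ≤ (1 : ℝ) := by
    refine inv_le_one_of_one_le₀ ?_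
    have := one_le_pow₀ ht1 (n := 5)
    linarith
  refine (h5 n hn δ Λ _ hδ hΛ hθ hθ1).mono hδ.le ?_ ?_
  · refine mul_le_mul_of_nonneg_left ?_ hCc
    rw [Real.rpow_neg hθ.le, Real.inv_rpow (by positivity), inv_inv,
      Real.mul_rpow (by norm_num) (by positivity)]
    have h1 : (6 : ℝ) ^ ee n ≤ 3 := by
      calc (6 : ℝ) ^ ee n ≤ 6 ^ (1 / 2 : ℝ) :=
            Real.rpow_le_rpow_of_exponent_le (by norm_num) he1
        _ ≤ 9 ^ (1 / 2 : ℝ) := Real.rpow_le_rpow (by norm_num) (by norm_num) (by norm_num)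
        _ = 3 := by
            rw [show (9 : ℝ) = 3 ^ (2 : ℝ) by norm_num, ← Real.rpow_mul (by norm_num)]
            norm_num
    have h2 : (t ^ 5) ^ ee n ≤ 4 ^ 5 := by
      have h3 : (t ^ 5) ^ ee n = (t ^ ee n) ^ 5 := by
        rw [← Real.rpow_natCast t 5, ← Real.rpow_mul ht0.le, mul_comm, Real.rpow_mul ht0.le,
          Real.rpow_natCast]
      rw [h3]
      exact pow_le_pow_left₀ (by positivity) (succ_pow_ee n hn) 5
    exact mul_le_mul h1 h2 (by positivity) (by norm_num)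
  · have h1 : 6 * (6 * t ^ 5)⁻¹ * t = (t ^ 4)⁻¹ := by field_simp
    rw [h1]
    have h2 : ((t ^ 4)⁻¹) ^ ((1 - ee n) / 2) ≤ t⁻¹ := by
      rw [Real.inv_rpow (by positivity)]
      refine inv_anti₀ ht0 ?_
      calc t = t ^ (1 : ℝ) := (Real.rpow_one t).symm
        _ ≤ t ^ ((4 : ℝ) * ((1 - ee n) / 2)) :=
          Real.rpow_le_rpow_of_exponent_le ht1 (by linarith)
        _ = (t ^ 4) ^ ((1 - ee n) / 2) := by
          rw [Real.rpow_mul ht0.le]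
          norm_num
    calc CE * t * Λ * ((t ^ 4)⁻¹) ^ ((1 - ee n) / 2) ≤ CE * t * Λ * t⁻¹ := by gcongr
      _ = CE * Λ := by field_simp

end

end Vale.Agent.P141.PL.H317
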